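import Vale.Agent.P287Q.Qz.St
import Vale.Agent.P287Q.G.Glu.Cas

/-!
# The class of the diagonal and its even part
-/

set_option linter.unusedSectionVars false
set_option linter.style.haveILetI false

namespace Vale.Agent.P269

open P291Z Set Function Tq Coh X3 Loc

/-- the even part of a Casimir element -/
theorem Gz.cas_evP (Y : PS) {B : Type} [Fintype B] {e e' : B → H Y.X}
    (h : ∀ x y, ∑ b, Y.J (y * e b) * Y.J (e' b * x) = Y.J (y * x)) :
    P287Q.Qz.Cas (Y.J ∘ₗ (Ch.Hev _).val.toLinearMap) (fun b => Gz.evP _ (e b))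
      fun b => Gz.evP _ (e' b) := by
  have k : ∀ (x : Ch.Hev Y.X) y, (Y.J ∘ₗ (Ch.Hev _).val.toLinearMap) (x * Gz.evP _ y) =
      Y.J (x.1 * y) := fun x y => by
    rw [← Gz.evP_mul]
    change Y.J ((2 : ℂ)⁻¹ • (_ + _)) = _
    rw [map_smul, map_add, Num.apply_parH fun n c a b => Y.pd.deg n
      (fun i => Int.not_even_iff_odd.2 a (i ▸ even_two_mul _)) c b, ← two_smul ℂ,
      inv_smul_smul₀ two_ne_zero]
  have l : ∀ (f f' : B → H Y.X) (x : Ch.Hev Y.X), ∑ b, Y.J (x.1 * f b) • f' b = x.1 →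
      ∑ b, (Y.J ∘ₗ (Ch.Hev _).val.toLinearMap) (x * Gz.evP _ (f b)) • Gz.evP _ (f' b) = x :=
    fun f f' x a => by
      simpa only [k, map_sum, map_smul, Gz.evP_coe] using congrArg (Gz.evP _) a
  exact ⟨fun x => l e e' x (Y.ext_left fun y => by
      simpa only [Finset.sum_mul, smul_mul_assoc, map_sum, map_smul, smul_eq_mul] using h y x),
    fun x => l e' e x (Y.ext_right fun y => by
      simpa only [Finset.mul_sum, mul_smul_comm, map_sum, map_smul, smul_eq_mul,
        ← Ch.Hev.commute x.2 (e' _), mul_comm (Y.J (y * _))] using h x y)⟩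

theorem St.casE : St.CasE := @fun Λ R J K _ _ _ _ _ F k h₁ => by
  obtain ⟨l, hB⟩ := h₁.pt
  have h := h₁.nice
  have hc := cp_of hB
  haveI := h.toGood.fp
  haveI := h.toGood.compact hc
  haveI := h.toGood.compact3 hc
  obtain ⟨n, hn⟩ := h.exists_dim
  have q : QM F.actT F.cone _ := .of_dim F.lin_actT hn
  refine ⟨fun c => Wt.intX_eq _, ⟨_, _, _, St.cas F l q.ps.coh .id h hB ⟨bijective_id,
    fun _ => rfl, fun a b => (q.ps.η_eq a b).trans (Wt.intX_eq _).symm, q.ps.one_eq⟩⟩,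
    fun a a' ha => Gz.cas_evP q.ps fun x y => ?_⟩
  obtain ⟨_, -, e⟩ := (prd₃ hB).fnd_eq hn hn
  have hp := (prd₃ hB).isHomeomorph
  have e₁ : (prd₃ hB).eqh.toEqv.qm = (hol₁ F).q := rfl
  have e₂ : (prd₃ hB).eqM.map = (hol₂ F).q := ContinuousMap.ext fun z => by
    obtain ⟨z, rfl⟩ := mk_surj z
    exact congrArg (Quo.mk _) (Subtype.ext (Prod.ext (hB.le z.2.1.1).symm rfl))
  rw [e₁, e₂] at e hp
  have i := isCas_iff.1 ha (H.map (hol₁ F).q y * H.map (hol₂ F).q x)
  rw [map_mul (H.map _), H.map_map, H.map_map, H.map_id (f := (hol₁ F).q.comp _) (q₁_d F),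
    H.map_id (f := (hol₂ F).q.comp _) (q₂_d F), ← mul_assoc, Ch.Hev.commute (cas_mem h hc ha), csm,
    Finset.mul_sum, Finset.sum_mul, map_sum] at i
  refine (Finset.sum_congr rfl fun b _ => ?_).trans i
  rw [← mul_assoc, ← map_mul (H.map _), mul_assoc, ← map_mul (H.map _), e, intg_cross hp]

end Vale.Agent.P269
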