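import Vale.Agent.P287Q.Qz.Alg
import Mathlib.Algebra.Algebra.Equiv

/-!
# Transport of the recursion along an isomorphism
-/

namespace Vale.Agent.P287Q.Qz

open Multiset

theorem one_map {X Y : Type} (f : X → Y) (s : Multiset X) (g : Y → Multiset Y → ℂ) :
    one g (s.map f) = one (fun x t => g (f x) (t.map f)) s := by
  induction s using Multiset.induction_on generalizing g with
  | empty => simp [one]
  | cons a s ih => simp only [map_cons, one_cons, ih]

theorem two_map {X Y : Type} (f : X → Y) (s : Multiset X) (g g' : Multiset Y → ℂ) :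
    two g g' (s.map f) = two (fun t => g (t.map f)) (fun t => g' (t.map f)) s := by
  induction s using Multiset.induction_on generalizing g g' with
  | empty => simp [two]
  | cons a s ih => simp only [map_cons, two_cons, ih]

variable {H H' : Type} [CommRing H] [Algebra ℂ H] [CommRing H'] [Algebra ℂ H'] (φ : H' ≃ₐ[ℂ] H)
  {B : Type} [Fintype B] {e e' : B → H}

theorem Cas.comap {η : H →ₗ[ℂ] ℂ} {η' : H' →ₗ[ℂ] ℂ} (h : Cas η e e') (a : ∀ x, η (φ x) = η' x) :
    Cas η' (fun b => φ.symm (e b)) fun b => φ.symm (e' b) :=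
  ⟨fun x => φ.injective (by simpa [← a] using h.left (φ x)),
    fun x => φ.injective (by simpa [← a] using h.right (φ x))⟩

theorem Lin.comap {Z : Multiset (ℕ × H) → ℂ} (h : Lin Z) :
    Lin fun s : Multiset (ℕ × H') => Z (s.map (Prod.map id φ)) := fun k s =>
  ⟨fun a b => by simpa using (h k _).map_add (φ a) (φ b),
    fun c a => by simpa using (h k _).map_smul c (φ a)⟩

theorem Rec.comap {Γ : Type} [Add Γ] {H₀ : Subalgebra ℂ H} {H₀' : Subalgebra ℂ H'} {Eff : Γ → Prop}
    {Z : ℕ → Γ → Multiset (ℕ × H) → ℂ} (h : Rec H₀ e e' Eff Z) (a : ∀ y ∈ H₀, φ.symm y ∈ H₀') :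
    Rec H₀' (fun b => φ.symm (e b)) (fun b => φ.symm (e' b)) Eff
      fun m d s => Z m d (s.map (Prod.map id φ)) := by
  intro m hm d n
  obtain ⟨ψ, b, c⟩ := h m hm d n
  refine ⟨LinearMap.funLeft ℂ ℂ (map (Prod.map id φ)) ψ, Submodule.mem_comap.1
    (Submodule.span_le.2 (fun ψ k => Submodule.mem_comap.2 (Submodule.subset_span ?_)) b),
    fun s k => c _ ((card_map _ _).trans k)⟩
  rcases k with ⟨m', r, y, u, v⟩ | ⟨m', r, y, u, v⟩ | ⟨m₁, m₂, d₁, d₂, α, β, y, u, u', w, v, v', c⟩
  · refine (congrArg _ (funext fun s => ?_)).mp (Gen.new m' r _ u (a y v))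
    simp [LinearMap.funLeft_apply]
  · refine (congrArg _ (funext fun s => ?_)).mp (Gen.old m' r _ u (a y v))
    simp [LinearMap.funLeft_apply, one_map]
  · refine (congrArg _ (funext fun s => ?_)).mp (Gen.node m₁ m₂ d₁ d₂ α β _ u u' w v v' (a y c))
    simp [LinearMap.funLeft_apply, two_map]

end Vale.Agent.P287Q.Qz
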