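import Vale.Agent.P287Q.Qz.Grr
import Vale.Agent.P287Q.Qz.Trn

/-!
# The twisted invariants respect the types
-/

set_option linter.unusedSectionVars false

namespace Vale.Agent.P269.Fam.One

open P291Z P287Q Qrr

variable {Λ R J K : Type} [Fintype Λ] [Fintype R] [Fintype J] [Fintype K] [DecidableEq R]
  {F : Fam Empty Λ R J K} {k : ℕ} (h : F.One k) (hQ : St.QC) (hU : St.UcS) (hN : St.NdS)
  (hS : St.Spl) (hC : St.CasE) {G : Type} [CommRing G] [Algebra ℂ G] (φ : G ≃ₐ[ℂ] F.HE)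
  {η : G →ₗ[ℂ] ℂ} (hη : ∀ x, η x = F.ηE (φ x)) {H₀ : Subalgebra ℂ G} {N : Submodule ℂ G}
  (hl : ∀ j, ∃ v ∈ H₀, (φ v).1 = F.lc _ 0 (F.w j))
include h hQ hU hN hS hC hη hl

/-- **The twisted invariants respect the types**, and their two point operators lie in the algebra
of the untwisted ones. -/
theorem qr0_of {A : (R → ℤ) → Subalgebra ℂ (Module.End ℂ N)} (hA : ∀ d, Qz.Mu H₀ N (A d))
    (hm : ∀ d₁ d₂, F.Eff d₁ → F.Eff d₂ → A d₁ ≤ A (d₁ + d₂) ∧ A d₂ ≤ A (d₁ + d₂))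
    (h0 : ∀ d, (fun s => F.gz k 1 d (s.map (Prod.map id φ))) ∈ Qz.Ty η H₀ N (A d)) {L : Type}
    (T : Finset L) (b : L → ℂ) (y : L → J) (m : ℕ) (d : R → ℤ) :
    (fun s => F.gz k (th T b y m) d (s.map (Prod.map id φ))) ∈ Qz.Ty η H₀ N (A d) := by
  choose v hv hu using hl
  obtain ⟨-, ⟨n, e, e', he⟩, c₂⟩ := hC F k h
  exact Qz.ty_of_rec (Z := fun m d s => F.gz k (th T b y m) d (s.map (Prod.map id φ))) hA hm
    ((c₂ e e' he).comap φ fun x => (hη x).symm) (fun _ _ => h.gz_lin.comap φ)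
    ((h.gz_rec hQ hU hN hS (u := fun j => φ (v j)) (H₀ := H₀.map φ.toAlgHom) hu he
      (fun j => Subalgebra.mem_map.2 ⟨_, hv j, rfl⟩) T b y).comap φ fun _ ⟨_, a, c⟩ =>
        c ▸ Gz.mem_eq (φ.symm_apply_apply _) a)
    (by simpa only [th_zero] using h0) m d

/-- The same for effective degrees. -/
theorem qr0_nat_of (pos : ∀ d, F.Eff d → 0 ≤ d) {A : (R →₀ ℕ) → Subalgebra ℂ (Module.End ℂ N)}
    (hA : ∀ d, Qz.Mu H₀ N (A d)) (hm : Monotone A) (h0 : ∀ d : R →₀ ℕ,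
      (fun s => F.gz k 1 (fun r => d r) (s.map (Prod.map id φ))) ∈ Qz.Ty η H₀ N (A d)) {L : Type}
    (T : Finset L) (b : L → ℂ) (y : L → J) (m : ℕ) (d : R →₀ ℕ) :
    (fun s => F.gz k (th T b y m) (fun r => d r) (s.map (Prod.map id φ))) ∈
      Qz.Ty η H₀ N (A d) := by
  have a := h.qr0_of hQ hU hN hS hC φ hη hl
    (A := fun d => A (Finsupp.equivFunOnFinite.symm fun r => (d r).toNat)) (fun _ => hA _)
    (fun d₁ d₂ a b => ⟨hm fun r => Int.toNat_le_toNat (le_add_of_nonneg_right (pos _ b r)),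
      hm fun r => Int.toNat_le_toNat (le_add_of_nonneg_left (pos _ a r))⟩) (fun d => ?_) T b y m
    fun r => d r
  · simpa only [Int.toNat_natCast, Finsupp.equivFunOnFinite_symm_coe] using a
  by_cases c : 0 ≤ d
  · simpa only [Finsupp.equivFunOnFinite_symm_apply_apply, fun r => Int.toNat_of_nonneg (c r)]
      using h0 (Finsupp.equivFunOnFinite.symm fun r => (d r).toNat)
  · exact Gz.mem_eq (funext fun s => by_contra fun e => c (pos _ (h.gz_eff e))) (zero_mem _)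

end Vale.Agent.P269.Fam.One
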