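import Vale.Agent.P287Q.Qz.St
import Vale.Agent.P287Q.G.Qrr.Node
import Vale.Agent.P287Q.G.Glu.NdQ
import Vale.Agent.P287Q.Trr.Lab

/-!
# Integrals over the nodes of connected curves of genus zero
-/

set_option linter.unusedSectionVars false
set_option linter.style.haveILetI false

namespace Vale.Agent.P269

open P291Z Set Function Topology Filter PowerSeries Ch

variable {S Λ R J K I ι ν κ α β : Type} [Fintype S] [Fintype Λ] [Fintype R] [Fintype J] [Fintype K]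
  [Fintype I] [Fintype ι] [DecidableEq ι] [Fintype ν] [Fintype κ] [Fintype α] [Fintype β]

namespace Gz

/-- The two branches of the node lie on the two components. -/
abbrev Sp (m : AM Λ R J ν (κ ⊕ Unit)) : Prop :=
  AM.Sep (nq () false) (nq () true) (nq () false) (nq () true) m

theorem glue_conn {m : AM Λ R J ν (κ ⊕ Unit)} (h : Cv.gen m.R m.N < 0) : m.glue.Conn ↔ Sp m := by
  refine ⟨fun c => ?_, fun s => (Trr.sep_iff _ _ |>.2 (.inl s)).1⟩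
  have k : ∀ U, m.Sat U → m.p (nq () false) ∈ U → m.p (nq () true) ∉ U → Sp m := fun U u a b =>
    (Trr.sep_iff _ _ |>.1 ⟨c, U, u, a, b⟩).resolve_right fun s => s.2.2.1 s.1
  refine by_contra fun n => h.not_ge (AC.Conn.gen_nonneg ⟨⟨m.p (nq () false)⟩, fun U u v => ?_⟩)
  have s : m.Sat U := LC.sat_iff.2 ⟨u, v⟩
  have := (LC.sat_iff (c := m.toAC.glue)).1 (AC.sat_glue.2 ⟨s, fun _ =>
    ⟨fun a => by_contra fun b => n (k U s a b),
      fun b => by_contra fun a => n (k Uᶜ (LC.compl s) a (not_not.2 b))⟩⟩)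
  exact c.2 U this.1 this.2

theorem lc {X : Type} [TopologicalSpace X] {a : H X} (ha : a ∈ Hev X) (b c : H X) :
    a * (b * c) = b * (a * c) := by rw [← mul_assoc, Hev.commute ha, mul_assoc]

theorem map_ind {X Y : Type} [TopologicalSpace X] [TopologicalSpace Y] (f : C(X, Y)) {B : Set Y}
    (h : IsClopen B) : H.map f (hcls (ind B)) = hcls (ind (f ⁻¹' B)) := by
  rw [H.map_hcls _ (cocycle_ind' h), pull_ind]

theorem alg₁ {X : Type} [TopologicalSpace X] {τ a b : H X} (hτ : τ ∈ Hev X) (ha : a ∈ Hev X)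
    (hb : b ∈ Hev X) (i x : H X) : τ * (a * (b * (i * x))) = i * (τ * (a * (b * x))) := by
  rw [lc hb, lc ha, lc hτ]

theorem alg₂ {X : Type} [TopologicalSpace X] {b y : H X} (hb : b ∈ Hev X) (hy : y ∈ Hev X)
    (i τ a x x' : H X) :
    i * (τ * (a * (b * y))) * (x * x') = i * (τ * (a * x * (b * x' * y))) := by
  simp only [mul_assoc]
  rw [Hev.commute hy (x * x'), mul_assoc, lc hb]

end Gz

namespace Ch

variable {ch : Ch ι J} {n : Nm ι J} {F : Fam S Λ R J K} {ℓ : R → ι → ℤ} {e : K → ι → ℕ}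
  {T₀ : Set (ch.WF ν κ Λ)} {T : Set ((ch.re n).WF ν (κ ⊕ Unit) Λ)}

theorem insM_one (Z : Set (ch.WF ν κ Λ)) (m : Mk ν κ) (y) :
    insM F Z (fun _ : Fin 1 => m) (fun _ => y) = ins1 F Z m y := mul_one _

/-- **integrals over the nodes**, with selectors -/
theorem NdP.numS [IsEmpty κ] [Mono.FP F.actT F.cone] (h : NdP F e T₀ T) (hn : ch.GN n Unit)
    (hT : Lev F T)
    (hZ : GZ F ℓ (ch.solF ν κ F ∩ T₀)) (hZ' : GZ F ℓ ((ch.re n).solF ν (κ ⊕ Unit) F ∩ T))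
    [CompactSpace (ModS F T₀)] (hd : F.IsDiag F.diag) {r : ℤ} (hr : IsDeg (2 * r) F.diag)
    (hc : IsCompact (dia F.toWt ((ch.re n).solF ν (κ ⊕ Unit) F ∩ T))) {u : J → F.HE}
    (hu : ∀ j, (u j).1 = F.lc _ (F.wt j) (F.w j)) {Θ} {γ : Type} {B : Finset γ} {Θ₁ Θ₂}
    (hΘ : Qrr.Cop Θ B Θ₁ Θ₂) (m : α → Mk ν κ) (x : α → ℕ × F.HE) (c : F.HE) (L : Finset (ℕ × ℕ))
    (w : ℕ × ℕ → ℂ) {Φ : Hev (ModN F T₀)}
    (hΦ : Roots _ _ Φ fun _ _ _ a b => ∑ q ∈ L, w q • ((-a) ^ q.1 * (-b) ^ q.2))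
    {p : Set (ModS F T₀)} {p' : Set (ModS F T)} (hp : IsClopen p) (hp' : IsClopen p')
    (hq : ∀ z ∈ (ZL F T : Set (ch.WG n ν κ Unit Λ)), ∀ a b,
      Quo.mk _ ⟨z.1, a⟩ ∈ p ↔ Quo.mk _ ⟨lf F z, b⟩ ∈ p') :
    2 * Loc.intg (pshN F e T₀ (hpull (inN _ _) (eC F _ c.1) * Φ.1))
      (hcls (ind p) * ((Qrr.evC (indC F.toWt _) Θ).1 * insP F _ m x)) = ∑ q ∈ L, w q * ∑ t ∈ B,
      F.itg (virF F e T) (hcls (ind p') * ((Qrr.evC (indC F.toWt _) (Θ₁ t)).1 *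
        (ins1 F _ (nq () false)
          (q.1, (c * Qrr.evC (fun j => (1 + C (u j) * X).invOfUnit 1) (Θ₂ t)).1) *
          (ins1 F _ (nq () true) (q.2, 1) * insP F _ (inc ∘ m) x)))) := by
  obtain ⟨_, _, hΨ, h₂, hη, ho, a1, a2, a3, a4⟩ := h
  have := hZ.act
  have g : ∀ z ∈ (ZL F T : Set (ch.WG n ν κ Unit Λ)), Gl z.1.2 z.2 := fun _ a => a.1.1.1
  have b0 := fun a y => insM_glue hZ hZ' ho g (fun _ _ => lf_same.2) hΨ h₂ hd (Quot.ind fun z =>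
    ⟨_, _, rfl, rfl, lf_same.1.symm, fun a =>
      ((ZL.vl_lf hn hT z.2 _).trans (by rw [← (g _ z.2).mark]; rfl)).symm⟩)
    (fun _ : Fin 1 => a) fun _ => y
  have b1 : H.map hΨ.map (hcls (ind p) * insP F _ m x) =
      H.map h₂.map (hcls (ind p') * insP F _ (inc ∘ m) x) := by
    rw [map_mul, map_mul, Gz.map_ind _ hp, Gz.map_ind _ hp', insP, insP, map_list_prod,
      map_list_prod, List.map_map, List.map_map]
    refine congrArg₂ (fun s l => hcls (ind s) * List.prod l)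
      (Set.ext (Quot.ind fun z => hq _ z.2 _ _)) (List.map_congr_left fun a _ => ?_)
    exact (congrArg _ (insM_one _ _ _).symm).trans ((b0 _ _).trans (congrArg _ (insM_one _ _ _)))
  have b2 := evC_glue hZ hZ' ho g (fun _ _ => lf_same.2) hΨ h₂ hn hu hΘ
  have b3 := hΦ _ hη.map _ _ (sdT_glue hZ hZ' g h₂ hη ho (fun _ _ => lf_same.2)
    (a := -⟨_, hZ'.cl_psi_mem (nq () false)⟩) (b := -⟨_, hZ'.cl_psi_mem (nq () true)⟩) rfl rfl)
  have b4 := (eC_glue hZ hZ' g h₂ hη (fun z a => ZL.vl_lf hn hT a _) c.1).trans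
    (congrArg _ (hZ'.cl_ev _ (hZ'.vl_cone _) _))
  have k := hZ.cuts.isPr_prN hZ.base hZ.orb
  rw [pshN, ← Gz.lc (Subtype.prop _)]
  rw [← eqM_nod_map] at k ⊢
  refine (NdN.main (Ψ := hΨ.map) (c := Hev.map _ c) a3 k a1 (hZ'.cocycle_dg hd _)
    ((hZ'.supp_dg hd _).trans a2) a4 (ContinuousMap.ext (Quot.ind fun _ => rfl)) b1 b2 b3 b4
    (hZ'.ev_dg hd hr hc _)).trans (Finset.sum_congr rfl fun q _ => congrArg _
      (Finset.sum_congr rfl fun t _ => congrArg _ (Eq.trans ?_ (Gz.alg₁ (Subtype.prop _)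
        (hZ'.ins1_mem _ _ (Subtype.prop _)) (hZ'.ins1_mem _ _ (one_mem _)) _ _))))
  simp only [ins1, hZ'.hcls_evF, map_mul, map_one, Hev.coe_map, Subalgebra.coe_mul]
  rfl

end Ch

namespace Nd

variable {ch : Ch ι J} {F : Fam S Λ R J K} {ℓ : R → ι → ℤ} [DecidableEq R] [DecidableEq I]
  [IsEmpty κ] {φ : I → J} {K₀ : RD R} {n : J → I → ℤ} {ψ : J → (Λ → ℂ) → ℂ}
  {O M : Set (ch.WF ν (κ ⊕ Unit) Λ)} {O' M' : Set (ch.WF (ν ⊕ Unit × Bool) κ Λ)} {d d' : ℕ}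
  (hd : F.IsDiag F.diag) {r : ℤ} (hr : IsDeg (2 * r) F.diag) {t : Coch F.X3} (ht : IsD3 F t)
  {a a' : β → H (F.X F.cone)}
  (ha : hcls t = ∑ s, hpull (fun z => Quo.mk F.actT ⟨_, (Quo.out z).2.1⟩) (a s) *
    hpull (fun z => Quo.mk F.actT ⟨_, (Quo.out z).2.2⟩) (a' s))
include hd hr ht ha

theorem itg_pi {e : K → ι → ℕ} {T : Set (ch.WF ν (κ ⊕ Unit) Λ)}
    {T' : Set (ch.WF (ν ⊕ Unit × Bool) κ Λ)} (h : Cx F F.zer φ ch e K₀ ℓ n ψ)
    (hT : NdT F F.zer T T') (hv : Vd F e T O M d) (hv' : Vd F e T' O' M' d')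
    [CompactSpace (ModS F T')] (hK : IsCompact (dia F.toWt (ch.solF ν (κ ⊕ Unit) F ∩ T)))
    (y : H (ModS F T')) : F.itg (virF F e T) (H.map hT.π y) =
      ∑ b, Loc.intg (virF F e T') (y * (ins1 F _ (mq () false) (0, a b) *
        ins1 F _ (mq () true) (0, a' b))) := by
  have z := hv.gz h.std
  have z' := hv'.gz h.std
  have c := Qrr.Fc.cocycle_rep y
  have k := ev_node h hT hv hv' hd z'.isClosed_dia.isCompact (fs := []) nofun isEmptyElim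
    (List.nodup_singleton ()) (fun _ => List.mem_singleton_self _) c ht ha
  rw [List.map_nil, List.nil_append, List.map_singleton, z.ev_nf hd hr hK (by simp [Fac.At])
    (by rintro (q | _); exacts [isEmptyElim q, List.mem_singleton_self _])
    (cocycle_pull hT.π.continuous c), Fam.clL_eq (fs := [.dg _]) (List.nodup_singleton _),
    ← H.map_hcls _ c, Qrr.Fc.hcls_rep, List.map_singleton, List.prod_singleton, Fam.cn,
    mul_one] at k
  rw [k, ← (Equiv.funUnique Unit β).sum_comp]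
  refine Finset.sum_congr rfl fun s _ => ?_
  have l₁ := z'.cocycle0 (f := .ev (mq () false) _ (a (s ()))) (z'.vl_cone _)
  have l₂ := z'.cocycle0 (f := .ev (mq () true) _ (a' (s ()))) (z'.vl_cone _)
  have l := (P291Z.Zs _).mul_mem l₁ l₂
  simp only [List.nil_append, List.flatMap_singleton, List.map_cons, List.map_nil, List.prod_cons,
    List.prod_nil, mul_one, ins1, pow_zero, one_mul]
  rw [← Loc.intg_hcls _ ((P291Z.Zs _).mul_mem c l), hcls_mul c l, hcls_mul l₁ l₂, Qrr.Fc.hcls_rep]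
  rfl

theorem itg_cyc {ch' : Ch ι J} (hc : ch' = ch) {e : Ch ι J → K → ι → ℕ}
    (h : Cx F F.zer φ ch (e ch) K₀ ℓ n ψ) {O M}
    (hv : Vd F (e ch') (ch'.cyc (κ ⊕ Unit) F (0 : ν → J → ℕ)) O M d)
    (hv' : Vd F (e ch) (ch.cyc κ F (0 : ν ⊕ Unit × Bool → J → ℕ)) O' M' d')
    [CompactSpace (ModS F (ch.cyc κ F (0 : ν ⊕ Unit × Bool → J → ℕ)))]
    (hK : IsCompact (dia F.toWt (ch'.solF ν (κ ⊕ Unit) F ∩ ch'.cyc (κ ⊕ Unit) F 0)))
    (hp : IsClopen (selQ F.toWt ℓ (ch.solF _ κ F ∩ ch.cyc κ F (0 : ν ⊕ Unit × Bool → J → ℕ))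
      (AM.Sep (mq () false) (mq () true) (mq () false) (mq () true))))
    (Θ) (y y' : ℕ × F.HE) (x : ν → ℕ × F.HE) :
    F.itg (virF F (e ch') (ch'.cyc (κ ⊕ Unit) F 0)) (hcls (ind (selQ F.toWt ℓ _ Gz.Sp)) *
      ((Qrr.evC (indC F.toWt _) Θ).1 * (ins1 F _ (nq () false) (y.1, y.2.1) *
        (ins1 F _ (nq () true) (y'.1, y'.2.1) * insP F _ (Ch.inc ∘ Sum.inl) x)))) =
      ∑ b, Loc.intg (virF F (e ch) (ch.cyc κ F 0)) (hcls (ind (selQ F.toWt ℓ _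
        (AM.Sep (mq () false) (mq () true) (mq () false) (mq () true)))) *
        ((Qrr.evC (indC F.toWt _) Θ).1 * (ins1 F _ (mq () false) (y.1, y.2.1 * a b) *
          (ins1 F _ (mq () true) (y'.1, y'.2.1 * a' b) *
            insP F _ (fun n => .inl (.inl n)) x)))) := by
  subst hc
  have hT := ndT_cyc (ν := ν) (κ := κ) (ε := Unit) h.std h.nice
  have z := hv.gz h.std
  have z' := hv'.gz h.std
  have i : ∀ m y, H.map hT.π (ins1 F _ m y) = ins1 F _ (unp ν κ Unit m) y := fun m y => by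
    rw [ins1, map_mul, map_pow]
    exact congrArg₂ (· ^ _ * ·) (cl_un hT.mapsTo z z' hd (f := .psi m) trivial).symm
      (cl_un hT.mapsTo z z' hd (f := .ev m _ y.2) (z'.vl_cone _)).symm
  have i₁ : H.map hT.π (insP F _ (fun n => .inl (.inl n)) x) = insP F _ (Ch.inc ∘ Sum.inl) x := by
    rw [insP, insP, map_list_prod, List.map_map]
    exact congrArg _ (List.map_congr_left fun n _ => i _ _)
  have i₂ : H.map hT.π (Qrr.evC (indC F.toWt _) Θ).1 = (Qrr.evC (indC F.toWt _) Θ).1 :=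
    (congrArg _ (Fam.cl_tw Θ)).symm.trans
      ((cl_un hT.mapsTo z z' hd (f := .tw Θ) trivial).symm.trans (Fam.cl_tw Θ))
  have i₃ : selQ F.toWt ℓ _ Gz.Sp = hT.π ⁻¹' selQ F.toWt ℓ _
      (AM.Sep (mq () false) (mq () true) (mq () false) (mq () true)) :=
    selQ_ext h.lat inter_subset_left Fam.ivt_sep fun w m k =>
      mem_selQ h.lat.wd (fun _ b => b.1.1.2.1) Fam.ivt_sep (x := ⟨_, hT.mapsTo w.2⟩)
        (rep_uW h.lat w.2.1.1.2.1 k)
  have k := itg_pi hd hr ht ha h hT hv hv' hK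
    (hcls (ind (selQ F.toWt ℓ _ (AM.Sep (mq () false) (mq () true) (mq () false) (mq () true)))) *
      ((Qrr.evC (indC F.toWt _) Θ).1 * (ins1 F _ (mq () false) (y.1, y.2.1) *
      (ins1 F _ (mq () true) (y'.1, y'.2.1) * insP F _ (fun n => .inl (.inl n)) x))))
  simp only [map_mul (H.map hT.π), i, i₁, i₂, Gz.map_ind _ hp, ← i₃] at k
  refine k.trans (Finset.sum_congr rfl fun b _ => ?_)
  rw [Gz.alg₂ (z'.ins1_mem _ _ y'.2.2) (z'.insP_mem _ _), ← z'.ins1_add, ← z'.ins1_add,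
    zero_add, zero_add]

end Nd

theorem Fam.mem_sp [DecidableEq R] {F : Fam S Λ R J K} {k D : ℕ} {g g' : ℤ} {d : R → ℤ}
    (hD : F.BigD k D) (hg : g' < 0)
    {z : (F.sch ν κ k D g d).WG (F.nms ν (κ ⊕ Unit) k D g' d) ν κ Unit Λ} (hz : Gl z.1.2 z.2) (a b) :
    Quo.mk _ ⟨z.1, a⟩ ∈ (F.sel fun m => m.Conn : Set (F.Mod κ k D g d (0 : ν → J → ℕ))) ↔
      Quo.mk _ ⟨lf F z, b⟩ ∈ (F.sel Gz.Sp : Set (F.Mod (κ ⊕ Unit) k D g' d (0 : ν → J → ℕ))) := by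
  obtain ⟨m, r⟩ := (chart_lat hD).exists_rep_sol b.1
  have r₀ : Rep ℓs ∅ (μG z) m := ((congrArg (fun y => Rep ℓs univ (μG y) m)
    (add_ι₂ (F := F) (z := z) (lfX F.mov z.1.2 z.2))).mp r).setF z.2.1.X
  obtain ⟨B, π, u, s, c⟩ := r₀.exists_data hz.mem'
  exact (mk_mem_conn hD _).trans ((hz.repD c fun _ hj => hj.elim).conn.symm.trans
    ((Gz.glue_conn ((rep_typ r b.1.1.2.1).1.trans_lt hg)).trans (mem_sel ivt_sep r).symm))

theorem Fam.One.itg_nz [DecidableEq R] {F : Fam Empty Λ R J K} {k D : ℕ} (h : F.One k)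
    (hD : F.BigD k D) {e e' : β → H (F.X F.cone)} (he : F.IsCas e e') (Θ) (d : R → ℤ)
    (x : ν → ℕ × F.HE) (y : ℕ × F.HE) (s : ℕ) :
    F.itg (F.vir (Fin 0 ⊕ Unit) k D (-1) d (0 : ν → J → ℕ)) (hcls (ind (F.sel Gz.Sp)) *
      ((Qrr.evC (indC F.toWt _) Θ).1 * (ins1 F _ (nq () false) (y.1, y.2.1) *
        (ins1 F _ (nq () true) (s, 1) * insP F _ (Ch.inc ∘ Sum.inl) x)))) =
      ∑ b, F.nz k AM.Sp2 Θ d x (y.1, y.2.1 * e b) (s, e' b) := by
  obtain ⟨hd, ⟨_, hr⟩, -⟩ := h.nice.dg St.dg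
  have := h.compactSpace (ν := ν ⊕ Unit × Bool) (κ := Fin 0) (g := -1) (d := d) (u := 0) hD
  obtain ⟨_, _, -, -, v⟩ := h.nice.vd' (ν := ν) (Fin 0 ⊕ Unit) h.big
  obtain ⟨_, _, -, -, v'⟩ := h.nice.vd' (ν := ν ⊕ Unit × Bool) (Fin 0) h.big
  obtain ⟨_, _, -, p⟩ := v D hD (-1) d 0
  obtain ⟨_, _, o, p'⟩ := v' D hD (-1) d 0
  obtain ⟨_, φ, n, ψ, c⟩ := h.nice.sh
  obtain ⟨τ, hτ⟩ := X3.exists_isD3 h.nice
  rw [Nd.smul_zero'] at p p'
  have hc : F.sch ν (Fin 0 ⊕ Unit) k D (-1) d = F.sch (ν ⊕ Unit × Bool) (Fin 0) k D (-1) d :=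
    congrArg (F.chart (-1) · d k D) (Fintype.card_congr (unp ν (Fin 0) Unit)).symm
  have cx : Nd.Cx F F.zer φ (F.sch (ν ⊕ Unit × Bool) (Fin 0) k D (-1) d) _ _ ℓs n ψ :=
    ⟨o.toStd, o.num, o.lat, Subset.rfl, h.nice, c⟩
  have hp := Fam.isClopen_sel_of_same (P := AM.Sp2) (g := -1) (d := d)
    (u := (0 : ν ⊕ Unit × Bool → J → ℕ)) hD fun _ _ s => s.sp2
  have hK := h.good.isCompact_dia (ν := ν) (κ := Fin 0 ⊕ Unit) (g := -1) (d := d) h.cp h.big hD 0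
  have a := Nd.itg_cyc hd hr hτ (hτ.hcls_eq h.nice h.cp he) hc (e := F.tdeg) cx p p' hK hp Θ y
    (s, 1) x
  refine Eq.trans ?_ (Finset.sum_congr rfl fun b _ => (h.nz_cl hD (fun _ _ s => s.sp2) _ _ _).symm)
  simp only [OneMemClass.coe_one, one_mul] at a
  exact a

/-- **Integrals over the nodes** of connected curves of genus zero. -/
theorem St.ndS : St.NdS := by
  intro Λ R J K ν _ _ _ _ _ _ F k D u B _ e e' Θ β T Θ₁ Θ₂ h hD hu he hΘ g d x c I w hg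
  obtain rfl : g = -1 + 1 := hg
  intro Φ hΦ
  obtain ⟨hd, ⟨_, hr⟩, -⟩ := h.nice.dg St.dg
  obtain ⟨_, hR⟩ := h.nice.reg
  obtain ⟨_, hB⟩ := h.nice.sm
  have := h.good.fp
  obtain ⟨_, _, _, _, a⟩ := h.good.exists_nc (ν := ν) (κ := Fin 0) h.abs hR hB h.big hD (-1) d
  have e₁ := h.abs.cyc_eq (ν := ν) (κ := Fin 0 ⊕ Unit)
    (ch := F.sch ν (Fin 0 ⊕ Unit) k D (-1) d) h.good.toInv
  have := h.compactSpace (ν := ν) (κ := Fin 0) (g := -1 + 1) (d := d) (u := 0) hD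
  have b := (a.ndP h.good (h.abs.cyc_eq h.good.toInv) e₁).numS a.gh.num
    (e₁ ▸ lev_adm h.good.toInv) (h.gz' _ _ hD _ _ _) (h.gz' _ _ hD (-1) d 0) hd hr
    (h.good.isCompact_dia h.cp h.big hD _)
    (fun j => (hu j).trans (congrArg (F.lc _ · _) (Subsingleton.elim _ _))) hΘ .inl x c I w hΦ
    (Fam.isClopen_sel_of_same hD fun _ _ => AM.Same.conn)
    (Fam.isClopen_sel_of_same (P := Gz.Sp) (g := -1) (d := d) (u := 0) hD fun _ _ s => s.sep)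
    fun z c => Fam.mem_sp hD (by decide) c.1.1.1
  exact b.trans (Finset.sum_congr rfl fun q _ => congrArg _ (Finset.sum_congr rfl fun t _ =>
    h.itg_nz hD he (Θ₁ t) d x (q.1, _) q.2))

end Vale.Agent.P269
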