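import Vale.Agent.P287Q.Qz.St
import Vale.Agent.P287Q.Pcs.Pr2

/-!
# Curves with two components: the invariants are products
-/

set_option linter.unusedSectionVars false

namespace Vale.Agent.P269

open P291Z Set Function Filter LG

namespace Gz

variable {Λ R J K ν β : Type} [Fintype Λ] [Fintype R] [Fintype J] [Fintype K] [Fintype ν]
  [DecidableEq R] [DecidableEq ν] {F : Fam Empty Λ R J K} {k : ℕ} {d d₁ d₂ : R → ℤ}

/-- the marked points on the first component -/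
def MT (A : Finset ν) : Set (ν ⊕ Unit × Bool) := {n | n.elim (· ∈ A) (·.2 = false)}

/-- the type of the first component -/
def Ct (p : Finset ν × (R → ℤ)) (m : AM Λ R J (ν ⊕ Unit × Bool) (Fin 0)) : Prop :=
  m.CTyp (m.p (qq false)) 0 p.2 (.inl '' MT p.1) ∧ m.Sp2

theorem same_ct (p : Finset ν × (R → ℤ)) (m m' : AM Λ R J (ν ⊕ Unit × Bool) (Fin 0))
    (e : m.Same m') (a : Ct p m) : Ct p m' := ⟨e.ctyp a.1, e.sp2 a.2⟩

theorem Ct.spS {p : Finset ν × (R → ℤ)} {m : AM Λ R J (ν ⊕ Unit × Bool) (Fin 0)} (a : Ct p m) :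
    m.SpS p.1 := ⟨a.2, fun n => (a.1.2.2 _).trans (by simp [MT])⟩

theorem ct_of {A : Finset ν} {m : AM Λ R J (ν ⊕ Unit × Bool) (Fin 0)} (s : m.SpS A)
    (t : m.Typ (-1) d) : ∃ d₁, Ct (A, d₁) m := by
  obtain ⟨u, v⟩ := AM.sep_ctyp s.1 t
  refine ⟨_, ⟨u.1, u.2.1, fun n => ?_⟩, s.1⟩
  rcases n with (n | ⟨_, _ | _⟩) | q
  · simpa [MT] using s.2 n
  · simpa [MT] using LC.mem_cmp _
  · simpa [MT] using v
  · exact q.1.elim0

variable (h : F.One k) {Θ : MvPolynomial (J × ℕ) ℂ} {T : Finset β} {Θ₁ Θ₂}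
  (hΘ : Qrr.Cop Θ T Θ₁ Θ₂)
include h hΘ

theorem split (r : ν → ℕ) {A B : List (ν × H (F.X F.cone))} (hE : Enum (A ++ B)) {M : Set ν}
    (hM : ∀ n, n ∈ A.map Prod.fst ↔ n ∈ M) {e e' : ν} (he : e ∈ M) (he' : e' ∉ M)
    (hd : d₁ + d₂ = d) :
    F.inv k (-1) d 0 (fun m => m.CTyp (m.p (.inl e)) 0 d₁ (.inl '' M) ∧
      AM.Sep (.inl e) (.inl e') (.inl e) (.inl e') m) (.tw Θ :: PrQ.ins .id r (A ++ B)) =
    ∑ t ∈ T, F.cor k ⟨fun _ _ m => m.Conn, Θ₁ t, univ, 1⟩ 0 _ F.cone d₁ (-1)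
        (A.map (Prod.map r id)) [] [] *
      F.cor k ⟨fun _ _ m => m.Conn, Θ₂ t, univ, 1⟩ 0 _ F.cone d₂ (-1)
        (B.map (Prod.map r id)) [] [] := by
  classical
  obtain ⟨l, hl⟩ := h.pt
  obtain ⟨L₁, L₂, h₁, h₂, rfl, rfl⟩ := hE.split (Equiv.sumCompl (· ∈ M)) fun n =>
    (hM n).trans ⟨fun c => ⟨⟨n, c⟩, rfl⟩, fun ⟨c, e⟩ => e ▸ c.2⟩
  have c := St.prC2 St.well F 0 l k (-1) 0 0 d d₁ d₂ (Equiv.sumCompl (· ∈ M)) 0 ⟨e, he⟩ Θ T Θ₁ Θ₂
    (PrQ.ins .id (r ∘ Subtype.val) L₁) (PrQ.ins .id (r ∘ Subtype.val) L₂) h.nice hl h.big rfl hd hΘ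
    (fun f b => (PrQ.ok_ins _ _ _ _ f b).1) (fun f b => (PrQ.ok_ins _ _ _ _ f b).1)
    (Q := AM.Sep (.inl e) (.inl e') (.inl e) (.inl e')) (fun _ _ => AM.Same.sep)
    (fun _ _ => AM.Same.conn)
    fun _ _ _ _ _ s c => AM.sep_split s c ⟨e, he⟩ ⟨e, he⟩ ⟨e', he'⟩ ⟨e', he'⟩
  have a := fun t => h.cor_ins (Θ := Θ₁ t) (d := d₁) (-1) (r ∘ Subtype.val) h₁
  have b := fun t => h.cor_ins (Θ := Θ₂ t) (d := d₂) (-1) (r ∘ Subtype.val) h₂
  rw [neg_add_cancel] at a b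
  rw [PrQ.ins_append, ← PrQ.ins_re, ← PrQ.ins_re, image_eq_range, List.map_map, List.map_map,
    Prod.map_comp_map, Prod.map_comp_map]
  exact c.trans (Finset.sum_congr rfl fun t _ => congrArg₂ (· * ·) (a t).symm (b t).symm)

theorem nz_ct (x : ν → ℕ × F.HE) (a a' : ℕ × H (F.X F.cone)) (p : Finset ν × (R → ℤ)) :
    F.nz k (Ct p) Θ d x a a' = ∑ t ∈ T,
      F.gz k (Θ₁ t) p.2 ((a.1, evP _ a.2) ::ₘ p.1.val.map x) *
        F.gz k (Θ₂ t) (d - p.2) ((a'.1, evP _ a'.2) ::ₘ p.1ᶜ.val.map x) := by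
  obtain ⟨D, hD⟩ := (F.eventually_bigD k).exists
  have z := h.gz' (ν ⊕ Unit × Bool) (Fin 0) hD (-1) d 0
  have i : Injective (Sum.inl : ν → ν ⊕ Unit × Bool) := Sum.inl_injective
  have s := split h hΘ (Sum.elim (fun n => (x n).1) fun q => cond q.2 a'.1 a.1)
    (A := (.inr ((), false), a.2) :: p.1.toList.map fun n => (.inl n, (x n).2.1))
    (B := (.inr ((), true), a'.2) :: p.1ᶜ.toList.map fun n => (.inl n, (x n).2.1))
    ⟨by simp [List.nodup_append, comp_def, (Finset.nodup_toList _).map i]; grind,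
      by rintro (n | ⟨_, _ | _⟩) <;> simp [em]⟩ (M := MT p.1)
    (by rintro (n | ⟨_, _ | _⟩) <;> simp [MT]) (e := .inr ((), false)) (e' := .inr ((), true)) rfl
    Bool.noConfusion (add_sub_cancel p.2 d)
  have e : ∀ B : Finset ν, (B.toList.map fun n => Ch.ins1 F _ (.inl (.inl n))
      ((x n).1, (x n).2.1)).prod = (∏ n ∈ B, z.in1 (.inl (.inl n)) (x n)).1 := fun B => by
    rw [← Finset.prod_map_toList, SubmonoidClass.coe_list_prod, List.map_map]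
    rfl
  have g : ∀ Θ d (a : ℕ × H (F.X F.cone)) (B : Finset ν), F.gz k Θ d ((a.1, evP _ a.2) ::ₘ
      B.val.map x) = _ := fun Θ d a B => by
    rw [← B.coe_toList, Multiset.map_coe, h.gz_evP, List.map_map]
  simp only [g]
  simp only [List.map_cons, List.map_map] at s
  refine Eq.trans ?_ s
  refine (h.nz_cl hD (same_ct p) x a a').trans (Eq.trans
    (congrArg (fun t => Loc.intg _ (_ * (_ * t))) ?_) (h.inv_ins hD (same_ct p) _ _).symm)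
  simp only [List.map_append, List.prod_append, List.map_cons, List.prod_cons, List.map_map,
    comp_def, Sum.elim_inl, Sum.elim_inr, cond_true, cond_false, e]
  rw [z.insP_eq, ← Finset.prod_mul_prod_compl p.1, MulMemClass.coe_mul, mul_assoc,
    ← mul_assoc (Subtype.val _), Ch.Hev.commute (Subtype.prop _) (Ch.ins1 ..), mul_assoc]

end Gz

open Gz in
/-- **Curves with two components.** -/
theorem St.spl : St.Spl := by
  intro Λ R J K ν _ _ _ _ _ _ _ F k d h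
  have f := (AM.finite_ctyp (ν := ν ⊕ Unit × Bool) (κ := Fin 0) h.good (-1) d).image (·.2.1)
  refine ⟨f.toFinset, fun Θ β T Θ₁ Θ₂ hΘ x a a' => ⟨fun A d₁ c => (nz_ct h hΘ x a a' (A, d₁)).symm.trans
    (by_contra fun e => ?_), fun 𝒜 => ?_⟩⟩
  · obtain ⟨m, a, b, t, u⟩ := (St.supp F 0 k _ _ 0 _ _ h.nice h.big e).1
    exact c (f.mem_toFinset.2 ⟨(0, _, _), ⟨m, a, b, t, _, u.1⟩, rfl⟩)
  · rw [← Finset.sum_product']
    refine (Fam.inv_congr h.good.toInv (fun _ _ e ⟨A, a, b⟩ => ⟨A, a, e.same.spS b⟩)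
      (fun _ _ e ⟨p, a, b⟩ => ⟨p, a, same_ct _ _ _ e.same b⟩) (fun m a b t => ⟨fun ⟨A, c, s⟩ => ?_,
        fun ⟨p, c, s⟩ => ⟨p.1, (Finset.mem_product.1 c).1, s.spS⟩⟩) _).trans
      (((PrQ.iv _ h .top Θ _ _).sum (St.add St.well) same_ct (fun m p q a b => Prod.ext
        (Finset.ext fun n => (a.spS.2 n).symm.trans (b.spS.2 n)) (a.1.unique b.1).2.1) _).trans
        (Finset.sum_congr rfl fun p _ => nz_ct h hΘ x a a' p))
    obtain ⟨d₁, u⟩ := ct_of s t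
    exact ⟨(A, d₁), Finset.mem_product.2
      ⟨c, f.mem_toFinset.2 ⟨(0, _, _), ⟨m, a, b, t, _, u.1⟩, rfl⟩⟩, u⟩

end Vale.Agent.P269
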