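import Mathlib.Algebra.Algebra.Subalgebra.Basic
import Mathlib.Algebra.BigOperators.Ring.Multiset
import Mathlib.Data.Multiset.Antidiagonal
import Mathlib.Data.Complex.Basic
import Mathlib.LinearAlgebra.Span.Basic
import Mathlib.Algebra.Module.LinearMap.End
import Mathlib.Algebra.Algebra.Bilinear
import Mathlib.Tactic.Ring

/-!
# Twisted invariants lie in the algebra of the untwisted ones: the induction
-/

namespace Vale.Agent.P287Q.Qz

open Multiset

variable {X : Type}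

open Classical in
/-- The sum over the choices of one element. -/
noncomputable def one (g : X → Multiset X → ℂ) (s : Multiset X) : ℂ :=
  (s.map fun x => g x (s.erase x)).sum

/-- The sum over the decompositions. -/
noncomputable def two (f g : Multiset X → ℂ) (s : Multiset X) : ℂ :=
  (s.antidiagonal.map fun p => f p.1 * g p.2).sum

theorem one_cons (g : X → Multiset X → ℂ) (a : X) (s : Multiset X) :
    one g (a ::ₘ s) = g a s + one (fun x t => g x (a ::ₘ t)) s := by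
  classical
  rw [one, map_cons, sum_cons, one]
  congr 1
  · rw [erase_cons_head]
  · exact congrArg _ (map_congr rfl fun x h => by rw [erase_cons_tail_of_mem h])

theorem two_cons (f g : Multiset X → ℂ) (a : X) (s : Multiset X) :
    two f g (a ::ₘ s) = two f (fun t => g (a ::ₘ t)) s + two (fun t => f (a ::ₘ t)) g s := by
  simp only [two, antidiagonal_cons, map_add, sum_add, map_map, Function.comp_def, Prod.map, id]

variable {H : Type} [CommRing H] [Algebra ℂ H] (η : H →ₗ[ℂ] ℂ) (H₀ : Subalgebra ℂ H)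
  (N : Submodule ℂ H)

/-- All insertions have type zero. -/
def Z0 (s : Multiset (ℕ × H)) : Prop := ∀ x ∈ s, x.2 ∈ H₀

variable {H₀} in
theorem Z0.cons {s : Multiset (ℕ × H)} (h : Z0 H₀ s) (k : ℕ) {y : H} (hy : y ∈ H₀) :
    Z0 H₀ ((k, y) ::ₘ s) := fun x a => (mem_cons.1 a).elim (fun e => e ▸ hy) (h x)

variable {H₀} in
theorem Z0.le {s t : Multiset (ℕ × H)} (h : Z0 H₀ s) (a : t ≤ s) : Z0 H₀ t :=
  fun x b => h x (mem_of_le a b)

/-- The linear forms that are represented by a class of type zero. -/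
def R0 : Submodule ℂ (H → ℂ) where
  carrier := {φ | ∃ z ∈ H₀, ∀ e, φ e = η (z * e)}
  add_mem' := fun ⟨z, a, b⟩ ⟨z', a', b'⟩ =>
    ⟨z + z', add_mem a a', fun e => by rw [Pi.add_apply, b, b', add_mul, η.map_add]⟩
  zero_mem' := ⟨0, zero_mem _, fun e => by simp⟩
  smul_mem' := fun c _ ⟨z, a, b⟩ =>
    ⟨c • z, H₀.smul_mem a c, fun e => by rw [Pi.smul_apply, b, smul_mul_assoc, map_smul]⟩

/-- The bilinear forms that are represented by an operator in `A`. -/
def R2 (A : Subalgebra ℂ (Module.End ℂ N)) : Submodule ℂ (N → H → ℂ) where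
  carrier := {φ | ∃ T ∈ A, ∀ a e, φ a e = η ((T a).1 * e)}
  add_mem' := fun ⟨z, a, b⟩ ⟨z', a', b'⟩ => ⟨z + z', add_mem a a', fun x e => by
    rw [Pi.add_apply, Pi.add_apply, b, b', LinearMap.add_apply, Submodule.coe_add, add_mul,
      η.map_add]⟩
  zero_mem' := ⟨0, zero_mem _, fun x e => by simp⟩
  smul_mem' := fun c _ ⟨z, a, b⟩ => ⟨c • z, A.smul_mem a c, fun x e => by
    rw [Pi.smul_apply, Pi.smul_apply, b, LinearMap.smul_apply, Submodule.coe_smul, smul_mul_assoc,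
      map_smul]⟩

/-- The functions of insertions that respect the type and whose two point operators lie in `A`. -/
def Ty (A : Subalgebra ℂ (Module.End ℂ N)) : Submodule ℂ (Multiset (ℕ × H) → ℂ) where
  carrier := {φ | ∀ s, Z0 H₀ s → (∀ k, (fun e => φ ((k, e) ::ₘ s)) ∈ R0 η H₀) ∧
    ∀ i j, (fun (a : N) e => φ ((i, a.1) ::ₘ (j, e) ::ₘ s)) ∈ R2 η N A}
  add_mem' := fun a b s h => ⟨fun k => add_mem ((a s h).1 k) ((b s h).1 k),
    fun i j => add_mem ((a s h).2 i j) ((b s h).2 i j)⟩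
  zero_mem' := fun _ _ => ⟨fun _ => zero_mem _, fun _ _ => zero_mem _⟩
  smul_mem' := fun c _ a s h => ⟨fun k => Submodule.smul_mem _ c ((a s h).1 k),
    fun i j => Submodule.smul_mem _ c ((a s h).2 i j)⟩

/-- Linear in every insertion. -/
def Lin (φ : Multiset (ℕ × H) → ℂ) : Prop := ∀ k s, IsLinearMap ℂ fun e => φ ((k, e) ::ₘ s)

/-- The multiplications by classes of type zero lie in `A`. -/
def Mu (A : Subalgebra ℂ (Module.End ℂ N)) : Prop := ∀ y ∈ H₀, ∃ T ∈ A, ∀ a : N, (T a).1 = y * a.1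

/-- A Casimir element. -/
structure Cas {B : Type} [Fintype B] (e e' : B → H) : Prop where
  left : ∀ x, ∑ b, η (x * e b) • e' b = x
  right : ∀ x, ∑ b, η (x * e' b) • e b = x

variable {η H₀ N} {A A' : Subalgebra ℂ (Module.End ℂ N)} {φ ψ : Multiset (ℕ × H) → ℂ}

theorem Cas.symm {B : Type} [Fintype B] {e e' : B → H} (h : Cas η e e') : Cas η e' e :=
  ⟨h.right, h.left⟩

theorem Ty.mono (h : φ ∈ Ty η H₀ N A) (a : A ≤ A') : φ ∈ Ty η H₀ N A' := fun s b =>
  ⟨(h s b).1, fun i j => let ⟨T, c, d⟩ := (h s b).2 i j; ⟨T, a c, d⟩⟩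

theorem mem_msum {M α : Type} [AddCommGroup M] [Module ℂ M] {P : Submodule ℂ M} {s : Multiset α}
    {f : α → M} (h : ∀ x ∈ s, f x ∈ P) : (s.map f).sum ∈ P :=
  P.toAddSubmonoid.multiset_sum_mem _ (forall_mem_map_iff.2 h)

theorem msum_apply {α β : Type} {M : Type} [AddCommMonoid M] (s : Multiset α) (f : α → β → M) (b : β) :
    (s.map f).sum b = (s.map fun x => f x b).sum := by
  induction s using Multiset.induction_on with
  | empty => rfl
  | cons a s ih => rw [map_cons, map_cons, sum_cons, sum_cons, Pi.add_apply, ih]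

theorem R0.msum {α : Type} {s : Multiset α} {f : α → H → ℂ} (h : ∀ x ∈ s, f x ∈ R0 η H₀) :
    (fun e => (s.map fun x => f x e).sum) ∈ R0 η H₀ :=
  (funext fun e => msum_apply s f e : (s.map f).sum = _) ▸ mem_msum h

theorem R2.msum {α : Type} {s : Multiset α} {f : α → N → H → ℂ} (h : ∀ x ∈ s, f x ∈ R2 η N A) :
    (fun a e => (s.map fun x => f x a e).sum) ∈ R2 η N A :=
  (funext fun a => funext fun e => by rw [msum_apply, msum_apply] : (s.map f).sum = _) ▸ mem_msum h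

theorem R0.add {f g : H → ℂ} (h : f ∈ R0 η H₀) (h' : g ∈ R0 η H₀) :
    (fun e => f e + g e) ∈ R0 η H₀ := add_mem h h'

theorem R2.add {f g : N → H → ℂ} (h : f ∈ R2 η N A) (h' : g ∈ R2 η N A) :
    (fun a e => f a e + g a e) ∈ R2 η N A := add_mem h h'

theorem R0.ite {f : H → ℂ} (h : f ∈ R0 η H₀) (p : Prop) [Decidable p] :
    (fun e => if p then 0 else f e) ∈ R0 η H₀ := by
  by_cases a : p <;> simp only [a, if_true, if_false]
  exacts [zero_mem _, h]

theorem R2.ite {f : N → H → ℂ} (h : f ∈ R2 η N A) (p : Prop) [Decidable p] :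
    (fun a e => if p then 0 else f a e) ∈ R2 η N A := by
  by_cases a : p <;> simp only [a, if_true, if_false]
  exacts [zero_mem _, h]

theorem R0.mul {f : H → ℂ} (h : f ∈ R0 η H₀) {y : H} (hy : y ∈ H₀) :
    (fun e => f (y * e)) ∈ R0 η H₀ :=
  let ⟨z, a, b⟩ := h
  ⟨z * y, mul_mem a hy, fun e => (b _).trans (by rw [mul_assoc])⟩

theorem R2.mul₁ (hA : Mu H₀ N A) {f : H → H → ℂ} (h : (fun a : N => f a.1) ∈ R2 η N A) {y : H}
    (hy : y ∈ H₀) : (fun a : N => f (y * a.1)) ∈ R2 η N A :=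
  let ⟨T, a, b⟩ := h
  let ⟨U, c, d⟩ := hA y hy
  ⟨T * U, mul_mem a c, fun x e => (congrArg (f · e) (d x).symm).trans (b _ _)⟩

theorem R2.mul₂ (hA : Mu H₀ N A) {f : N → H → ℂ} (h : f ∈ R2 η N A) {y : H} (hy : y ∈ H₀) :
    (fun a e => f a (y * e)) ∈ R2 η N A :=
  let ⟨T, a, b⟩ := h
  let ⟨U, c, d⟩ := hA y hy
  ⟨U * T, mul_mem c a, fun x e => (b _ _).trans (by
    rw [Module.End.mul_apply, d, mul_left_comm, mul_assoc])⟩

/-- one more insertion -/
theorem Ty.cons (h : φ ∈ Ty η H₀ N A) (r : ℕ) {y : H} (hy : y ∈ H₀) :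
    (fun s => φ ((r, y) ::ₘ s)) ∈ Ty η H₀ N A := fun s a =>
  ⟨fun k => by simpa only [cons_swap (r, y)] using (h _ (a.cons r hy)).1 k,
    fun i j => by simpa only [cons_swap (r, y)] using (h _ (a.cons r hy)).2 i j⟩

/-- one insertion is changed -/
theorem Ty.one (hA : Mu H₀ N A) (h : φ ∈ Ty η H₀ N A) (P : ℕ → Prop) [DecidablePred P] (g : ℕ → ℕ)
    {y : H} (hy : y ∈ H₀) :
    one (fun x t => if P x.1 then 0 else φ ((g x.1, y * x.2) ::ₘ t)) ∈ Ty η H₀ N A := by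
  let : DecidableEq (ℕ × H) := fun a b => Classical.propDecidable (a = b)
  intro s a
  have k : ∀ x ∈ s, Z0 H₀ ((g x.1, y * x.2) ::ₘ s.erase x) := fun x b =>
    (a.le (erase_le _ _)).cons _ (mul_mem hy (a x b))
  refine ⟨fun k' => ?_, fun i j => ?_⟩
  · simp only [one_cons]
    exact R0.add (R0.ite (R0.mul ((h s a).1 _) hy) _) (R0.msum fun x b =>
      R0.ite (by simpa only [cons_swap (g x.1, _)] using (h _ (k x b)).1 k') _)
  · simp only [one_cons]
    exact R2.add (R2.ite (R2.mul₁ hA (f := fun a e => φ ((g i, a) ::ₘ (j, e) ::ₘ s))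
      ((h s a).2 _ j) hy) _) (R2.add (R2.ite
        (by simpa only [cons_swap (g j, _)] using R2.mul₂ hA ((h s a).2 i (g j)) hy) _)
      (R2.msum fun x b =>
        R2.ite (by simpa only [cons_swap (g x.1, _)] using (h _ (k x b)).2 i j) _))

variable {B : Type} [Fintype B] {e e' : B → H}

theorem Cas.sum (h : Cas η e e') {f : H → ℂ} (hf : IsLinearMap ℂ f) (z : H) :
    ∑ b, η (z * e b) * f (e' b) = f z := by
  conv_rhs => rw [← h.left z]
  rw [show f = hf.mk' f from rfl, map_sum]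
  simp only [map_smul, smul_eq_mul]

theorem lin_mul {f : H → ℂ} (hf : IsLinearMap ℂ f) (y : H) : IsLinearMap ℂ fun e => f (y * e) :=
  ⟨fun a b => by rw [mul_add, hf.map_add], fun c a => by rw [mul_smul_comm, hf.map_smul]⟩

/-- the contribution of a node -/
theorem Ty.two (hA : Mu H₀ N A) (hc : Cas η e e') (h : φ ∈ Ty η H₀ N A) (h' : ψ ∈ Ty η H₀ N A)
    (l : Lin φ) (l' : Lin ψ) (α β : ℕ) {y : H} (hy : y ∈ H₀) :
    (fun s => ∑ b, two (fun t => φ ((α, y * e b) ::ₘ t)) (fun t => ψ ((β, e' b) ::ₘ t)) s) ∈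
      Ty η H₀ N A := by
  intro s a
  have k : ∀ p ∈ s.antidiagonal, Z0 H₀ p.1 ∧ Z0 H₀ p.2 := fun p b =>
    ⟨a.le (mem_antidiagonal.1 b ▸ Multiset.le_add_right _ _),
      a.le (mem_antidiagonal.1 b ▸ Multiset.le_add_left _ _)⟩
  have c : ∀ (f g : B → Multiset (ℕ × H) → ℂ), ∑ b, Qz.two (f b) (g b) s =
      (s.antidiagonal.map fun p => ∑ b, f b p.1 * g b p.2).sum := fun f g => by
    simp only [Qz.two, Finset.sum, sum_map_sum_map Finset.univ.val]
  have u : ∀ {t}, Z0 H₀ t → ∃ z ∈ H₀, ∀ t', ∑ b, φ ((α, y * e b) ::ₘ t) * ψ ((β, e' b) ::ₘ t') =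
      ψ ((β, z) ::ₘ t') := fun {t} b =>
    let ⟨z, c, d⟩ := R0.mul ((h t b).1 α) hy
    ⟨z, c, fun t' => by simpa only [← d] using hc.sum (l' β t') z⟩
  have u' : ∀ {t'}, Z0 H₀ t' → ∃ z ∈ H₀, ∀ t, ∑ b, φ ((α, y * e b) ::ₘ t) * ψ ((β, e' b) ::ₘ t') =
      φ ((α, z) ::ₘ t) := fun {t'} b =>
    let ⟨z, c, d⟩ := (h' t' b).1 β
    ⟨y * z, mul_mem hy c, fun t => by
      simpa only [← d, mul_comm (ψ _)] using hc.symm.sum (lin_mul (l α t) y) z⟩
  refine ⟨fun k' => ?_, fun i j => ?_⟩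
  · simp only [two_cons, Finset.sum_add_distrib, c]
    refine R0.add (R0.msum fun p b => ?_) (R0.msum fun p b => ?_)
    · obtain ⟨z, a, d⟩ := u (k p b).1
      simpa only [d, cons_swap (β, z)] using (h' _ ((k p b).2.cons β a)).1 k'
    · obtain ⟨z, a, d⟩ := u' (k p b).2
      simpa only [d, cons_swap (α, z)] using (h _ ((k p b).1.cons α a)).1 k'
  · simp only [two_cons, Finset.sum_add_distrib, c]
    refine R2.add (R2.add (R2.msum fun p b => ?_) (R2.msum fun p b => ?_))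
      (R2.add (R2.msum fun p b => ?_) (R2.msum fun p b => ?_))
    · obtain ⟨z, a, d⟩ := u (k p b).1
      simpa only [d, cons_swap (β, z)] using (h' _ ((k p b).2.cons β a)).2 i j
    · obtain ⟨T, a, d⟩ := (h' _ (k p b).2).2 i β
      obtain ⟨U, a', d'⟩ := R2.mul₁ hA (f := fun a e => φ ((α, a) ::ₘ (j, e) ::ₘ p.1))
        ((h _ (k p b).1).2 α j) hy
      refine ⟨U * T, mul_mem a' a, fun x w => ?_⟩
      simpa only [← d, mul_comm (ψ _), cons_swap (i, _), d', Module.End.mul_apply]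
        using hc.symm.sum (lin_mul (l α ((j, w) ::ₘ p.1)) y) (T x).1
    · obtain ⟨T, a, d⟩ := R2.mul₂ hA ((h _ (k p b).1).2 i α) hy
      obtain ⟨U, a', d'⟩ := (h' _ (k p b).2).2 β j
      refine ⟨U * T, mul_mem a' a, fun x w => ?_⟩
      simpa only [← d, cons_swap (i, _), d', Module.End.mul_apply]
        using hc.sum (l' β ((j, w) ::ₘ p.2)) (T x).1
    · obtain ⟨z, a, d⟩ := u' (k p b).2
      simpa only [d, cons_swap (α, z)] using (h _ ((k p b).1.cons α a)).2 i j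

variable {Γ : Type} [Add Γ] (H₀) (e e') (Eff : Γ → Prop) (Z : ℕ → Γ → Multiset (ℕ × H) → ℂ)

/-- The terms of the recursion. -/
inductive Gen (m : ℕ) (d : Γ) : (Multiset (ℕ × H) → ℂ) → Prop
  | new (m' r y) : m' < m → y ∈ H₀ → Gen m d fun s => Z m' d ((r, y) ::ₘ s)
  | old (m' r y) : m' < m → y ∈ H₀ → Gen m d
      (one fun x t => if x.1 + r = 0 then 0 else Z m' d ((x.1 + r - 1, y * x.2) ::ₘ t))
  | node (m₁ m₂ d₁ d₂ α β y) : m₁ < m → m₂ < m → d₁ + d₂ = d → Eff d₁ → Eff d₂ → y ∈ H₀ → Gen m d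
      fun s => ∑ b, two (fun t => Z m₁ d₁ ((α, y * e b) ::ₘ t)) (fun t => Z m₂ d₂ ((β, e' b) ::ₘ t)) s

/-- The recursion. -/
def Rec : Prop := ∀ m, m ≠ 0 → ∀ d n, ∃ φ ∈ Submodule.span ℂ {φ | Gen H₀ e e' Eff Z m d φ},
  ∀ s, card s = n → Z m d s = φ s

variable {H₀ e e' Eff Z}

/-- **The twisted invariants respect the types and their two point operators lie in the algebra
of the untwisted ones.** -/
theorem ty_of_rec {A : Γ → Subalgebra ℂ (Module.End ℂ N)} (hA : ∀ d, Mu H₀ N (A d))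
    (hm : ∀ d₁ d₂, Eff d₁ → Eff d₂ → A d₁ ≤ A (d₁ + d₂) ∧ A d₂ ≤ A (d₁ + d₂)) (hc : Cas η e e')
    (hl : ∀ m d, Lin (Z m d)) (hr : Rec H₀ e e' Eff Z) (h0 : ∀ d, Z 0 d ∈ Ty η H₀ N (A d)) (m : ℕ) :
    ∀ d, Z m d ∈ Ty η H₀ N (A d) := by
  induction m using Nat.strong_induction_on with
  | _ m ih =>
  intro d
  rcases eq_or_ne m 0 with rfl | h
  · exact h0 d
  have k : Submodule.span ℂ {φ | Gen H₀ e e' Eff Z m d φ} ≤ Ty η H₀ N (A d) := by
    refine Submodule.span_le.2 fun φ a => ?_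
    rcases a with ⟨m', r, y, a, b⟩ | ⟨m', r, y, a, b⟩ | ⟨m₁, m₂, d₁, d₂, α, β, y, a, a', rfl, b, b', c⟩
    · exact Ty.cons (ih m' a d) r b
    · exact Ty.one (hA d) (ih m' a d) (· + r = 0) (· + r - 1) b
    · exact Ty.two (hA _) hc (Ty.mono (ih m₁ a d₁) (hm _ _ b b').1)
        (Ty.mono (ih m₂ a' d₂) (hm _ _ b b').2) (hl _ _) (hl _ _) α β c
  intro s a
  obtain ⟨φ, b, c⟩ := hr m h d (card s + 1)
  obtain ⟨ψ, b', c'⟩ := hr m h d (card s + 1 + 1)
  refine ⟨fun k' => ?_, fun i j => ?_⟩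
  · simpa only [c _ (card_cons _ _)] using (k b s a).1 k'
  · have : ∀ x y, card (x ::ₘ y ::ₘ s) = card s + 1 + 1 := fun x y => by rw [card_cons, card_cons]
    simpa only [c' _ (this _ _)] using (k b' s a).2 i j

end Vale.Agent.P287Q.Qz
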