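import Vale.Agent.P287Q.G.Qrr.PrQ
import Vale.Agent.P287Q.G.Qrr.Fac
import Vale.Agent.P287Q.G.Map.Well
import Vale.Agent.P287Q.G.Glu.NdDefs
import Vale.Agent.P287Q.Trr.Sep
import Vale.Agent.P287Q.Qz.Alg

/-!
# Connected twisted invariants of genus zero as functions of multisets
-/

set_option linter.unusedSectionVars false
set_option linter.style.haveILetI false

namespace Vale.Agent.P269

open P291Z Set Function Filter LG

namespace Gz

variable {X : Type} [TopologicalSpace X]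

variable (X) in
/-- The even part of a class. -/
noncomputable def evP : H X →ₗ[ℂ] Ch.Hev X where
  toFun c := ⟨(2 : ℂ)⁻¹ • (c + (parH X).σ c),
    Num.mem_Hev (by rw [map_smul, map_add, (parH X).inv, add_comm])⟩
  map_add' a b := Subtype.ext (by
    simp only [map_add, Subalgebra.coe_add, smul_add]; abel)
  map_smul' z a := Subtype.ext (by
    simp only [map_smul, Subalgebra.coe_smul, RingHom.id_apply, ← smul_add, smul_comm z])

theorem evP_val (c : H X) : (evP X c).1 = (2 : ℂ)⁻¹ • (c + (parH X).σ c) := rfl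

theorem evP_coe (c : Ch.Hev X) : evP X c.1 = c := Subtype.ext (by
  rw [evP_val, Tq.parH_Hev c.2, ← two_smul ℂ, inv_smul_smul₀ two_ne_zero])

theorem evP_mul (c : Ch.Hev X) (y : H X) : evP X (c.1 * y) = c * evP X y := Subtype.ext (by
  rw [evP_val, Tq.parH_mul, Tq.parH_Hev c.2, Subalgebra.coe_mul, evP_val, mul_smul_comm, mul_add])

/-- even insertions can be permuted -/
theorem sw_perm {ν V : Type} [AddCommGroup V] [Module ℂ V] {p : Fock.Par ℂ V}
    {W : List (ν × V) → ℂ} (h : SW p W) {L L' : List (ν × V)} (e : L.Perm L')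
    (hL : ∀ x ∈ L, p.σ x.2 = x.2) (M : List (ν × V)) : W (M ++ L) = W (M ++ L') := by
  induction e generalizing M with
  | nil => rfl
  | cons x _ ih =>
    simpa only [List.append_assoc, List.singleton_append] using
      ih (fun y a => hL y (List.mem_cons_of_mem _ a)) (M ++ [x])
  | swap x y l => exact h.ev M y x l (hL x (by simp))
  | trans a _ i j => exact (i hL M).trans (j (fun x b => hL x (a.mem_iff.2 b)) M)

end Gz

variable {S Λ R J K ι ν κ α : Type} [Fintype S] [Fintype Λ] [Fintype R] [Fintype J] [Fintype K]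
  [Fintype ι] [DecidableEq ι] [Fintype ν] [Fintype κ] [Fintype α]

/-- The even classes of the target. -/
abbrev Fam.HE (F : Fam S Λ R J K) : Type := Ch.Hev (F.X F.cone)

/-- The integral of an even class over the target. -/
noncomputable def Fam.ηE (F : Fam S Λ R J K) : F.HE →ₗ[ℂ] ℂ :=
  Loc.intg (Tq.fnd F.actT F.cone) ∘ₗ (Ch.Hev _).val.toLinearMap

namespace Ch

variable {ch : Ch ι J} {F : Fam S Λ R J K} {ℓ : R → ι → ℤ} {Z : Set (ch.WF ν κ Λ)}

variable (F Z) in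
/-- The class of even descendant insertions at the marked points `m a`. -/
noncomputable def insP (m : α → Mk ν κ) (x : α → ℕ × F.HE) : H (Quo (actF F.toWt) Z) :=
  (Finset.univ.toList.map fun a => ins1 F Z (m a) ((x a).1, (x a).2.1)).prod

/-- An even descendant insertion. -/
noncomputable def GZ.in1 (h : GZ F ℓ Z) (m : Mk ν κ) (x : ℕ × F.HE) :
    Hev (Quo (actF F.toWt) Z) := ⟨ins1 F Z m (x.1, x.2.1), h.ins1_mem m x.1 x.2.2⟩

theorem GZ.insP_eq (h : GZ F ℓ Z) (m : α → Mk ν κ) (x : α → ℕ × F.HE) :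
    insP F Z m x = (∏ a, h.in1 (m a) (x a)).1 := by
  rw [← Finset.prod_map_toList, SubmonoidClass.coe_list_prod, List.map_map]
  rfl

theorem GZ.insP_mem (h : GZ F ℓ Z) (m : α → Mk ν κ) (x : α → ℕ × F.HE) : insP F Z m x ∈ Hev _ :=
  h.insP_eq m x ▸ Subtype.prop _

end Ch

/-- The branch `b` of the node. -/
abbrev Gz.qq (b : Bool) : Ch.Mk (ν ⊕ Unit × Bool) (Fin 0) := Nd.mq () b

/-- The two branches lie on the two components. -/
def AM.Sp2 (m : AM Λ R J (ν ⊕ Unit × Bool) (Fin 0)) : Prop :=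
  AM.Sep (Gz.qq false) (Gz.qq true) (Gz.qq false) (Gz.qq true) m

/-- The marked points on the component of the first branch are those of `T`. -/
def AM.SpS (T : Finset ν) (m : AM Λ R J (ν ⊕ Unit × Bool) (Fin 0)) : Prop :=
  m.Sp2 ∧ ∀ n, m.p (.inl (.inl n)) ∈ m.cmp (m.p (Gz.qq false)) ↔ n ∈ T

theorem AM.Same.sp2 {m m' : AM Λ R J (ν ⊕ Unit × Bool) (Fin 0)} (h : m.Same m') (a : m.Sp2) :
    m'.Sp2 := h.sep a

theorem AM.Same.spS {T : Finset ν} {m m' : AM Λ R J (ν ⊕ Unit × Bool) (Fin 0)} (h : m.Same m')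
    (a : m.SpS T) : m'.SpS T :=
  ⟨h.sp2 a.1, fun n => Iff.trans ⟨h.symm.mem_cmp, h.mem_cmp⟩ (a.2 n)⟩

theorem AM.sp2_iff {m : AM Λ R J (ν ⊕ Unit × Bool) (Fin 0)} :
    m.Sp2 ↔ ∃ T ∈ (Finset.univ : Finset (Finset ν)), m.SpS T := by
  classical
  exact ⟨fun a => ⟨Finset.univ.filter fun n => m.p (.inl (.inl n)) ∈ m.cmp (m.p (Gz.qq false)),
    Finset.mem_univ _, a, fun n => by simp⟩, fun ⟨_, _, a⟩ => a.1⟩

theorem AM.sep_iff_spS [DecidableEq ν] {m : AM Λ R J (ν ⊕ Unit × Bool) (Fin 0)} (a b : ν) :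
    AM.Sep (.inl (.inl a)) (.inl (.inl b)) (Gz.qq false) (Gz.qq true) m ↔
      ∃ T ∈ Finset.univ.filter fun T : Finset ν => a ∈ T ∧ b ∉ T, m.SpS T := by
  classical
  refine ⟨fun s => ⟨Finset.univ.filter fun n => m.p (.inl (.inl n)) ∈ m.cmp (m.p (Gz.qq false)),
    by simpa using ⟨s.1, fun c => s.2.2.1 ((LC.cmp_eq s.2.1).symm.trans (LC.cmp_eq c) ▸
      LC.mem_cmp _)⟩, ⟨LC.mem_cmp _, LC.mem_cmp _, s.2.2⟩, fun n => by simp⟩, fun ⟨T, c, s⟩ => ?_⟩
  obtain ⟨-, c, c'⟩ := Finset.mem_filter.1 c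
  exact ⟨(s.2 a).2 c, (s.1.2.2.2 _).resolve_left (mt (s.2 b).1 c'), s.1.2.2⟩

namespace Fam

variable [DecidableEq R] (F : Fam Empty Λ R J K) (k : ℕ)

/-- **The connected twisted invariants of genus zero.** -/
noncomputable def gz (Θ : MvPolynomial (J × ℕ) ℂ) (d : R → ℤ) (s : Multiset (ℕ × F.HE)) : ℂ :=
  F.cor k ⟨fun _ _ m => m.Conn, Θ, univ, 1⟩ 0 _ F.cone d (-1)
    (s.toList.map (Prod.map id Subtype.val)) [] []

/-- There is a connected stable map of genus zero and degree `d`. -/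
def Eff (d : R → ℤ) : Prop :=
  ∃ (n : ℕ) (m : AM Λ R J (Fin n ⊕ Fin 0) (Fin 0)), m.Sol F ∧ m.Stable F.θ ∧ m.Typ 0 d ∧ m.Conn

/-- The invariants of genus `-1` with insertions `a`, `a'` at the branches of the node. -/
noncomputable def nz (P : AM Λ R J (ν ⊕ Unit × Bool) (Fin 0) → Prop) (Θ : MvPolynomial (J × ℕ) ℂ)
    (d : R → ℤ) (x : ν → ℕ × F.HE) (a a' : ℕ × H (F.X F.cone)) : ℂ :=
  F.inv k (-1) d 0 P (.tw Θ :: PrQ.ins .id (Sum.elim (fun n => (x n).1) fun q => cond q.2 a'.1 a.1)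
    ((.inr ((), false), a.2) :: (.inr ((), true), a'.2) ::
      Finset.univ.toList.map fun n => (.inl n, (x n).2.1)))

variable {F k}

namespace One

variable (h : F.One k) {D : ℕ} {g : ℤ} {d : R → ℤ} {Θ : MvPolynomial (J × ℕ) ℂ}
include h

/-- **Normal form** in any large chart. -/
theorem inv_cl (hD : F.BigD k D) {P : AM Λ R J ν (Fin 0) → Prop}
    (hP : ∀ m m', m.Same m' → P m → P m') {fs : List (Fac F.toWt ν (Fin 0))}
    (hf : ∀ f ∈ fs, f.Ok F 0) : F.inv k g d 0 P fs = Loc.intg (F.vir (Fin 0) k D g d 0)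
      (hcls (ind (F.sel P)) * (fs.map (F.cl _)).prod) := by
  have e : (fun n => (0 : ν → ℕ) n • (0 : J → ℕ)) = 0 := funext fun _ => smul_zero _
  have a := h.nice.inv_eq (g := g) (d := d) (u := 0) (fs := fs) h.cp h.big hD
    (fun _ _ a => hP _ _ a.same) (isClopen_sel_of_same hD hP) (e ▸ hf) (fun q => q.elim0) hD
  have b := fun f c => h.nice.at_of_ok (g := g) (d := d) (u := 0) (f := f) h.big hD (e ▸ hf f c)
  rw [e] at a b
  haveI := h.compactSpace (ν := ν) (κ := Fin 0) (g := g) (d := d) (u := 0) hD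
  exact a.trans (intg_sel (h.gz' _ _ hD g d 0) _ (isClopen_sel_of_same hD hP) b)

omit h in
theorem prod_ins {ch : Ch ι J} (Z : Set (ch.WF ν (Fin 0) Λ)) (r : ν → ℕ)
    (L : List (ν × H (F.X F.cone))) : ((Fac.tw Θ :: PrQ.ins .id r L).map (F.cl Z)).prod =
      (Qrr.evC (Ch.indC F.toWt Z) Θ).1 *
        (L.map fun y => Ch.ins1 F Z (.inl y.1) (r y.1, y.2)).prod := by
  simp only [PrQ.ins, List.map_cons, List.prod_cons, List.map_flatten, List.prod_flatten,
    List.map_map, comp_def, List.map_append, List.map_replicate, List.prod_append,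
    List.prod_replicate, List.map_nil, List.prod_nil, mul_one]
  exact congrArg₂ (· * ·) (cl_tw Θ) rfl

theorem inv_ins (hD : F.BigD k D) {P : AM Λ R J ν (Fin 0) → Prop}
    (hP : ∀ m m', m.Same m' → P m → P m') (r : ν → ℕ) (L : List (ν × H (F.X F.cone))) :
    F.inv k g d 0 P (.tw Θ :: PrQ.ins .id r L) = Loc.intg (F.vir (Fin 0) k D g d 0)
      (hcls (ind (F.sel P)) * ((Qrr.evC (Ch.indC F.toWt _) Θ).1 *
        (L.map fun y => Ch.ins1 F _ (.inl y.1) (r y.1, y.2)).prod)) :=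
  (h.inv_cl hD hP (fs := .tw Θ :: PrQ.ins .id r L) (List.forall_mem_cons.2
    ⟨trivial, fun f a => (PrQ.ok_ins _ r L 0 f a).1.1⟩)).trans (by rw [prod_ins])

omit h in
theorem prod_nz {ch : Ch ι J} (Z : Set (ch.WF (ν ⊕ Unit × Bool) (Fin 0) Λ)) (x : ν → ℕ × F.HE)
    (a a' : ℕ × H (F.X F.cone)) : (((.inr ((), false), a.2) :: (.inr ((), true), a'.2) ::
      Finset.univ.toList.map fun n => (.inl n, (x n).2.1)).map fun y : (ν ⊕ Unit × Bool) × _ =>
        Ch.ins1 F Z (.inl y.1) (Sum.elim (fun n => (x n).1) (fun q => cond q.2 a'.1 a.1) y.1,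
          y.2)).prod = Ch.ins1 F Z (Gz.qq false) a *
        (Ch.ins1 F Z (Gz.qq true) a' * Ch.insP F Z (fun n => .inl (.inl n)) x) := by
  rw [List.map_cons, List.map_cons, List.prod_cons, List.prod_cons, List.map_map]
  rfl

theorem nz_cl (hD : F.BigD k D) {P : AM Λ R J (ν ⊕ Unit × Bool) (Fin 0) → Prop}
    (hP : ∀ m m', m.Same m' → P m → P m') (x : ν → ℕ × F.HE) (a a' : ℕ × H (F.X F.cone)) :
    F.nz k P Θ d x a a' = Loc.intg (F.vir (Fin 0) k D (-1) d 0)
      (hcls (ind (F.sel P)) * ((Qrr.evC (Ch.indC F.toWt _) Θ).1 * (Ch.ins1 F _ (Gz.qq false) a *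
        (Ch.ins1 F _ (Gz.qq true) a' * Ch.insP F _ (fun n => .inl (.inl n)) x)))) := by
  rw [nz, h.inv_ins hD hP, prod_nz]

/-- correlators in terms of arbitrary markings -/
theorem cor_ins (j : ℤ) (r : ν → ℕ) {L : List (ν × H (F.X F.cone))} (hL : Enum L) :
    F.cor k ⟨fun _ _ m => m.Conn, Θ, univ, 1⟩ 0 _ F.cone d j (L.map (Prod.map r id)) [] [] =
      F.inv k (j + 1) d 0 (fun m => m.Conn) (.tw Θ :: PrQ.ins .id r L) := by
  have s : St.Spec := St.spec (St.cor St.well (St.rel St.dg))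
  have a := PA.ser0_mon (p := parH _) (i := .id) s h.nice h.cp h.big (h.exOk_conn Θ) subset_rfl
    (fun _ => rfl) d j (L.map (Prod.map r id))
  rw [PA.mon, List.map_map] at a
  have b := PrQ.ser_eq (p := parH _) (i := .id) (d := d) h Θ r s (fun _ => rfl) (h.exOk_conn Θ) j hL
  rw [show Prod.map (id : ℕ → ℕ) (LinearMap.id : H (F.X F.cone) →ₗ[ℂ] _) = id from rfl,
    List.map_id] at a
  exact a.symm.trans b

theorem sw_cor (Θ d j) : SW (parH _) fun l =>
    F.cor k ⟨fun _ _ m => m.Conn, Θ, univ, 1⟩ 0 F.cone F.cone d j l [] [] :=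
  (St.cor St.well (St.rel St.dg) F 0 k _ h.nice h.cp h.big (h.exOk_conn Θ) subset_rfl
    (fun _ a => a.1) d j).one [] []

theorem gz_coe (l : List (ℕ × F.HE)) : F.gz k Θ d l =
    F.cor k ⟨fun _ _ m => m.Conn, Θ, univ, 1⟩ 0 _ F.cone d (-1)
      (l.map (Prod.map id Subtype.val)) [] [] :=
  Gz.sw_perm (h.sw_cor Θ d _) ((Multiset.coe_eq_coe.1 (Multiset.coe_toList _)).map _)
    (List.forall_mem_map.2 fun x _ => Tq.parH_Hev x.2.2) []

theorem gz_ofFn {n : ℕ} (f : Fin n → ℕ × F.HE) : F.gz k Θ d (Finset.univ.val.map f) =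
    F.corP k (fun m => m.Conn) Θ d (-1) (Prod.map id Subtype.val ∘ f) := by
  rw [Fin.univ_val_map, h.gz_coe, List.map_ofFn, cor_ofFnP]

theorem gz_lin : P287Q.Qz.Lin (F.gz k Θ d) := fun r s => by
  induction s using Quotient.inductionOn with
  | h l =>
    have e := fun y => h.gz_coe (Θ := Θ) (d := d) ((r, y) :: l)
    exact ⟨fun a b => (e _).trans (((h.sw_cor Θ d _).add [] r _ _ _).trans
      (congrArg₂ _ (e a).symm (e b).symm)), fun c a => (e _).trans
        (((h.sw_cor Θ d _).smul [] r c _ _).trans (congrArg _ (e a).symm))⟩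

/-- one insertion of arbitrary parity -/
theorem gz_evP (r : ℕ) (y : H (F.X F.cone)) (l : List (ℕ × F.HE)) :
    F.gz k Θ d ((r, Gz.evP _ y) ::ₘ l) = F.cor k ⟨fun _ _ m => m.Conn, Θ, univ, 1⟩ 0 _ F.cone d (-1)
      ((r, y) :: l.map (Prod.map id Subtype.val)) [] [] := by
  have s := h.sw_cor Θ d (-1)
  have p := St.par F 0 k _ subset_rfl (fun _ a => a.1) h.nice h.cp h.big (h.exOk_conn Θ) d (-1)
    ((r, y) :: l.map (Prod.map id Subtype.val)) [] []
  rw [List.map_cons, List.map_map, show Prod.map id (parH _).σ ∘ Prod.map id Subtype.val =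
    (Prod.map id Subtype.val : ℕ × F.HE → _) from
      funext fun x => Prod.ext rfl (Tq.parH_Hev x.2.2)] at p
  refine (h.gz_coe (_ :: l)).trans ((s.smul [] r _ _ _).trans ?_)
  rw [s.add]
  exact (congrArg (fun t => (2 : ℂ)⁻¹ * (_ + t)) p).trans (by
    simp only [List.nil_append]; ring)

theorem gz_inv (x : ν → ℕ × F.HE) : F.gz k Θ d (Finset.univ.val.map x) =
    F.inv k 0 d 0 (fun m => m.Conn) (.tw Θ :: PrQ.ins .id (fun n => (x n).1)
      (Finset.univ.toList.map fun n => (n, (x n).2.1))) := by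
  have a := h.cor_ins (Θ := Θ) (d := d) (-1) (fun n => (x n).1)
    (L := Finset.univ.toList.map fun n => (n, (x n).2.1)) ⟨by
      rw [List.map_map]; exact (Finset.nodup_toList _).map injective_id, fun n => by simp⟩
  rw [neg_add_cancel, List.map_map] at a
  rw [← Finset.coe_toList, Multiset.map_coe, h.gz_coe, List.map_map]
  exact a

/-- **The invariants as integrals** in any large chart and for any set of markings. -/
theorem gz_cl (hD : F.BigD k D) (x : ν → ℕ × F.HE) : F.gz k Θ d (Finset.univ.val.map x) =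
    Loc.intg (F.vir (Fin 0) k D 0 d (0 : ν → J → ℕ)) (hcls (ind (F.sel fun m => m.Conn)) *
      ((Qrr.evC (Ch.indC F.toWt _) Θ).1 * Ch.insP F _ .inl x)) := by
  rw [h.gz_inv, h.inv_ins hD fun _ _ => AM.Same.conn, List.map_map]
  rfl

theorem exists_fn {β : Type} (s : Multiset β) {n : ℕ} (e : s.card = n) :
    ∃ f : Fin n → β, s = Finset.univ.val.map f := by
  obtain ⟨l, rfl⟩ := Quot.exists_rep s
  obtain rfl : l.length = n := e
  exact ⟨l.get, ((Fin.univ_val_map _).trans (congrArg _ (List.ofFn_get l))).symm⟩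

theorem gz_supp {s} (e : F.gz k Θ d s ≠ 0) : ∃ m : AM Λ R J (Fin s.card ⊕ Fin 0) (Fin 0),
    m.Sol F ∧ m.Stable F.θ ∧ m.Typ 0 d ∧ m.Conn := by
  obtain ⟨f, a⟩ := h.exists_fn s rfl
  rw [a, h.gz_ofFn] at e
  exact h.supp e

theorem gz_eff {s} (e : F.gz k Θ d s ≠ 0) : F.Eff d := ⟨_, h.gz_supp e⟩

theorem gz_tw (d s) : ∃ L : MvPolynomial (J × ℕ) ℂ →ₗ[ℂ] ℂ, ∀ Θ, F.gz k Θ d s = L Θ := by
  obtain ⟨f, a⟩ := h.exists_fn s rfl
  rw [a]
  obtain ⟨D, hD⟩ := (F.eventually_bigD k).exists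
  exact ⟨Loc.intg _ ∘ₗ .mulLeft ℂ _ ∘ₗ .mulRight ℂ _ ∘ₗ ((Ch.Hev _).val.comp
    (Qrr.evC _)).toLinearMap, fun Θ => h.gz_cl hD f⟩

end One

end Fam

end Vale.Agent.P269
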