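import Vale.Agent.P287Q.Qz.St
import Vale.Agent.P287Q.Alg.Ant
import Vale.Agent.P287Q.G.Qrr.MainB
import Vale.Agent.P287Q.G.Fg.UcD
import Vale.Agent.P287Q.G.Fg.Pt

/-!
# Riemann-Roch for connected twisted invariants of genus zero
-/

set_option linter.unusedSectionVars false
set_option linter.style.haveILetI false

namespace Vale.Agent.P269

open P291Z Function Filter Finset P287Q

namespace Gz

variable {α ν : Type} [Fintype ν] [DecidableEq ν]

theorem map_cons {n : ℕ} (a : α) (f : Fin n → α) :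
    univ.val.map (Fin.cons a f : Fin (n + 1) → α) = a ::ₘ univ.val.map f := by
  rw [Fin.univ_val_map, Fin.univ_val_map, List.ofFn_succ]; rfl

theorem map_elim {n : ℕ} (f : Fin n → α) :
    univ.val.map (Sum.elim f Fin.elim0 : Fin n ⊕ Fin 0 → α) = univ.val.map f := by
  rw [← univ_disjSum_univ, val_disjSum, Multiset.disjSum, Multiset.map_add, Multiset.map_map,
    Multiset.map_map, univ_eq_empty (α := Fin 0), empty_val, Multiset.map_zero, add_zero]
  rfl

theorem map_update (f : ν → α) (s : ν) (y : α) :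
    univ.val.map (update f s y) = y ::ₘ (univ.val.erase s).map f := by
  rw [← Multiset.cons_erase (s := (univ : Finset ν).val) (mem_univ s), Multiset.map_cons,
    update_self, Multiset.erase_cons_head]
  exact congrArg _ (Multiset.map_congr rfl fun a b =>
    update_of_ne ((univ.nodup.mem_erase_iff).1 b).1 _ _)

theorem one_univ (g : α → Multiset α → ℂ) (f : ν → α) :
    Qz.one g (univ.val.map f) = ∑ s, g (f s) ((univ.val.erase s).map f) := by
  classical
  rw [Qz.one, Multiset.map_map]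
  exact congrArg _ (Multiset.map_congr rfl fun s a =>
    congrArg _ (Multiset.map_erase_of_mem f _ a).symm)

theorem two_univ (f g : Multiset α → ℂ) (x : ν → α) :
    Qz.two f g (univ.val.map x) = ∑ A : Finset ν, f (A.val.map x) * g (Aᶜ.val.map x) :=
  (Alg.sum_finset x fun s t => f s * g t).symm

theorem mem_eq {A : Type} [SetLike A α] {P : A} {x y : α} (e : x = y) (h : y ∈ P) : x ∈ P := e ▸ h

theorem intg_ch {X J : Type} [TopologicalSpace X] {c : J → PowerSeries (Ch.Hev X)}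
    (hc : ∀ j, PowerSeries.constantCoeff (c j) = 1) (v : BM X) (i a : H X) (Θ x m) :
    Loc.intg v (i * ((Qrr.evC c (PowerSeries.coeff m (Qrr.chT (Qrr.cU x)) * Θ)).1 * a)) =
      Loc.intg (cap (PowerSeries.coeff m (Qrr.chT (c x))).1 v) (i * ((Qrr.evC c Θ).1 * a)) := by
  rw [Loc.intg_cap, map_mul (Qrr.evC c), Qrr.evC_chT hc, Subalgebra.coe_mul, mul_assoc,
    Ch.Hev.commute (Subtype.prop _), mul_assoc i]

theorem mem_mul {P : Submodule ℂ (α → ℂ)} {f : α → ℂ} (c : ℂ) (h : f ∈ P) :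
    (fun s => c * f s) ∈ P := P.smul_mem c h

theorem mem_sum {P : Submodule ℂ (α → ℂ)} {β : Type} {T : Finset β} {f : β → α → ℂ}
    (h : ∀ t ∈ T, f t ∈ P) : (fun s => ∑ t ∈ T, f t s) ∈ P :=
  Gz.mem_eq (funext fun s => (sum_apply s T f).symm) (sum_mem h)

variable {S Λ R J K κ : Type} [Fintype S] [Fintype Λ] [Fintype R] [Fintype J] [Fintype K]
  [Fintype κ] [DecidableEq R] {F : Fam S Λ R J K}

theorem not_un (hF : F.Good) {m : AM Λ R J ν κ} (hm : m.Sol F) {g : ℤ} {d : R → ℤ}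
    (ht : m.Typ g d) (hc : m.Conn) (hn : Fintype.card (Ch.Mk ν κ) ≠ 0)
    (h : d ≠ 0 ∨ 3 < 2 * g + Fintype.card (Ch.Mk ν κ)) (q) : ¬m.Un F.θ q := fun a => by
  rw [AM.Un, hc.cmp_eq, Cv.degOn_univ, ht.deg_ω] at a
  have b := ht.1 ▸ hc.gen_nonneg
  have c : d = 0 := funext fun i => (ht.2 i).symm.trans (Cv.degOn_univ.symm.trans
    (hm.degOn_zero hF (by rw [Cv.degOn_univ, ht.deg_bz]; omega) i))
  simp only [c, Pi.zero_apply, mul_zero, Finset.sum_const_zero] at a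
  exact h.elim (· c) fun _ => by omega

end Gz

variable {Λ R J K : Type} [Fintype Λ] [Fintype R] [Fintype J] [Fintype K] [DecidableEq R]
  {F : Fam Empty Λ R J K} {k : ℕ}

namespace Fam.One

open Qrr Ch

variable (h : F.One k)
include h

/-- the unstable range -/
theorem gz_unst (Θ) {s : Multiset (ℕ × F.HE)} (hs : s.card ≤ 2) : F.gz k Θ 0 s = 0 :=
  by_contra fun e => by
    obtain ⟨m, -, a, b, c⟩ := h.gz_supp e
    have := a _ isClopen_univ (Set.nonempty_iff_univ_nonempty.1 c.1)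
    rw [Cv.degOn_univ, b.deg_ω] at this
    simp only [Fintype.card_sum, Fintype.card_fin, Fintype.card_prod, Pi.zero_apply, mul_zero,
      sum_const_zero] at this
    omega

section cl

variable {D n : ℕ} {g j : ℤ} {d : R → ℤ} (hD : F.BigD k D)
include hD

theorem intg_conn (v : BM (F.Mod (Fin 0) k D g d (0 : Fin n ⊕ Fin 0 → J → ℕ))) (Θ f) :
    F.intg v (fun m => m.Conn) (F.fsF _ Θ f) = Loc.intg v
      (hcls (ind (F.sel fun m => m.Conn)) * ((evC (indC F.toWt _) Θ).1 * insC F _ f)) := by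
  have hz := h.gz' (Fin n ⊕ Fin 0) (Fin 0) hD g d 0
  haveI := h.compactSpace (ν := Fin n ⊕ Fin 0) (κ := Fin 0) (g := g) (d := d) (u := 0) hD
  exact (intg_sel hz v (isClopen_sel_of_same hD fun _ _ => AM.Same.conn) (hz.at_fsF Θ f)).trans
    (by rw [hz.prod_fsF])

theorem corP_cl (Θ) (f : Fin n → ℕ × H (F.X F.cone)) : F.corP k (fun m => m.Conn) Θ d j f =
    Loc.intg (F.vir (Fin 0) k D (j + 1) d 0) (hcls (ind (F.sel fun m => m.Conn)) *
      ((evC (indC F.toWt _) Θ).1 * insC F _ f)) :=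
  (h.inv_cl hD (fun _ _ => AM.Same.conn) (Wt.fsF_ok Θ f 0)).trans
    (by rw [(h.gz' (Fin n ⊕ Fin 0) (Fin 0) hD (j + 1) d 0).prod_fsF])

theorem insP_elim (f : Fin n → ℕ × F.HE) : insP F _ .inl (Sum.elim f Fin.elim0) =
    insC F (F.Zs (Fin 0) k D g d 0) (Prod.map id Subtype.val ∘ f) := by
  rw [(h.gz' (Fin n ⊕ Fin 0) (Fin 0) hD g d 0).insP_eq, Fintype.prod_sum_type, Fin.prod_univ_zero,
    mul_one, ← List.prod_ofFn, SubmonoidClass.coe_list_prod, List.map_ofFn]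
  rfl

theorem corP_ch (Θ) (f : Fin n → ℕ × H (F.X F.cone)) (x : J) (m : ℕ) :
    F.corP k (fun m => m.Conn) (PowerSeries.coeff m (Qrr.chT (cU x)) * Θ) d j f =
      F.intg (cap (PowerSeries.coeff m (Qrr.chT (indC F.toWt _ x))).1
        (F.vir (Fin 0) k D (j + 1) d 0)) (fun m => m.Conn) (F.fsF _ Θ f) := by
  rw [h.corP_cl hD, h.intg_conn hD]
  exact Gz.intg_ch (h.gz' (Fin n ⊕ Fin 0) (Fin 0) hD (j + 1) d 0).constCoeff_indC _ _ _ Θ x m

theorem corP_update (Θ) (f : Fin n → ℕ × H (F.X F.cone)) (s r) {c} (hc : c ∈ Hev _) :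
    F.intg (cap (hcls (psiF (mk0 s)) ^ r * hcls (evF (mk0 s) F.cone (rep c)))
      (F.vir (Fin 0) k D (j + 1) d 0)) (fun m => m.Conn) (F.fsF _ Θ f) =
    F.corP k (fun m => m.Conn) Θ d j (update f s ((f s).1 + r, c * (f s).2)) := by
  rw [h.corP_cl hD, h.intg_conn hD, Loc.intg_cap,
    (h.gz' (Fin n ⊕ Fin 0) (Fin 0) hD (j + 1) d 0).insC_update _ _ _ hc,
    ← mul_assoc (Subtype.val _), mul_assoc (hcls _)]
  rfl

end cl

omit h in
/-- The integral over the connected part as a linear form in the class. -/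
noncomputable def inC {ν : Type} [Fintype ν] {D : ℕ} {g : ℤ} {d : R → ℤ} {u : ν → J → ℕ}
    (fs : List (Fac F.toWt ν (Fin 0))) : BM (F.Mod (Fin 0) k D g d u) →ₗ[ℂ] ℂ where
  toFun v := F.intg v (fun m => m.Conn) fs
  map_add' _ _ := by simp only [Fam.intg, ev_eq, LinearMap.add_apply]
  map_smul' _ _ := by simp only [Fam.intg, ev_eq, LinearMap.smul_apply, RingHom.id_apply]

theorem grrP (hQ : St.QC) (hU : St.UcS) (hN : St.NdS) {u : J → F.HE}
    (hu : ∀ j, (u j).1 = F.lc _ 0 (F.w j)) {B : Type}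
    [Fintype B] {e e' : B → H (F.X F.cone)} (he : F.IsCas e e') {Θ} {β : Type} {T : Finset β}
    {Θ₁ Θ₂} (hΘ : Qrr.Cop Θ T Θ₁ Θ₂) {d : R → ℤ} {j : ℤ} (hj : j + 1 = 0) {n : ℕ}
    (hs : d ≠ 0 ∨ 3 ≤ n) (f₀ : Fin n → ℕ × F.HE) {f} (hf : Prod.map id Subtype.val ∘ f₀ = f)
    (x : J) (m : ℕ) :
    F.corP k (fun m => m.Conn) (PowerSeries.coeff (m + 1) (Qrr.chT (cU x)) * Θ) d j f =
      ∑ q ∈ antidiagonal (m + 2), (bernoulli q.1 : ℚ) / (q.1.factorial * q.2.factorial) *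
        (F.corP k (fun m => m.Conn) Θ d j (Fin.cons (q.1, (u x).1 ^ q.2) f) -
          ∑ s, if (f s).1 + q.1 = 0 then 0 else F.corP k (fun m => m.Conn) Θ d j
            (update f s ((f s).1 + q.1 - 1, (u x).1 ^ q.2 * (f s).2))) +
      1 / 2 * ∑ q ∈ antidiagonal m, ∑ a ∈ antidiagonal q.1,
        (-1) ^ a.1 * (bernoulli (q.1 + 2) : ℚ) / ((q.1 + 2).factorial * q.2.factorial) *
          ∑ t ∈ T, ∑ b, F.nz k AM.Sp2 (Θ₁ t) d (Sum.elim f₀ Fin.elim0)
            (a.1, (u x ^ q.2 * evC (fun j =>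
              (1 + PowerSeries.C (u j) * PowerSeries.X).invOfUnit 1) (Θ₂ t)).1 * e b)
              (a.2, e' b) := by
  have hc : ∀ p : ℕ, (u x).1 ^ p ∈ Hev _ := fun p => pow_mem (u x).2 p
  have hx : F.lc _ (F.wt x) (F.w x) = (u x).1 := by rw [hu, Subsingleton.elim (F.wt x) 0]
  obtain ⟨D, ⟨Φ, hΦ, h1⟩, hD, h4⟩ := ((hQ (ν := Fin n ⊕ Fin 0) F k (j + 1) d h).and
    ((F.eventually_bigD k).and ((eventually_all_finset (antidiagonal (m + 2))).2 fun q _ =>
      hU F k Θ d j f q.1 _ _ _ h (hc q.2) .conn .conn (fun m a _ b c => Gz.not_un h.good a b c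
        (by simp) (hs.imp_right fun _ => by
          simp only [Fintype.card_sum, Fintype.card_fin, Fintype.card_prod]; omega) _)
        fun _ _ _ _ _ _ _ a _ _ _ => a.conn))).exists
  have h7 := Asm.lin_grr (inC (F.fsF _ Θ f)) (h1 x m)
  rw [hx] at h7
  rw [h.corP_ch hD]
  refine h7.trans (congrArg₂ _ (sum_congr rfl fun q hq => congrArg _ ?_) ?_)
  · refine (congrArg₂ _ (h4 q hq) (if_congr Iff.rfl rfl ((Asm.sum_mk _).trans (sum_congr rfl
      fun s _ => h.corP_update hD Θ f s _ (hc q.2))))).trans ?_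
    rw [sub_sub]
    congr 1
    split_ifs with h0
    · simp only [h0, add_zero]
    · rw [zero_add]
      refine sum_congr rfl fun s _ => ?_
      rw [if_neg (by omega), show (f s).1 + (q.1 - 1) = (f s).1 + q.1 - 1 by omega]
  · rw [mul_sum]
    refine sum_congr rfl fun q hq => ?_
    have h8 := hN F k D u e e' Θ T Θ₁ Θ₂ h hD hu he hΘ (j + 1) d (Sum.elim f₀ Fin.elim0)
      (u x ^ q.2) (antidiagonal q.1)
      (fun a => (-1) ^ a.1 * (bernoulli (q.1 + 2) : ℚ) / (q.1 + 2).factorial) hj (Φ q.1)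
      fun T _ g a b hg => (hΦ q.1 T g a b hg).trans (Asm.mum_eq a b _)
    rw [h.insP_elim hD, hf, ← h.intg_conn hD] at h8
    refine (congrArg _ ((eq_div_iff_mul_eq two_ne_zero).2 ((mul_comm _ _).trans h8))).trans ?_
    rw [sum_div, mul_sum, mul_sum]
    refine sum_congr rfl fun a _ => ?_
    ring

/-- **Riemann-Roch** for multisets of insertions -/
theorem grrM (hQ : St.QC) (hU : St.UcS) (hN : St.NdS) (hS : St.Spl) {u : J → F.HE}
    (hu : ∀ j, (u j).1 = F.lc _ 0 (F.w j)) {B : Type} [Fintype B] {e e' : B → H (F.X F.cone)}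
    (he : F.IsCas e e') {d : R → ℤ} {n : ℕ} (hs : d ≠ 0 ∨ 3 ≤ n) : ∃ Dn : Finset (R → ℤ),
    ∀ {L : Type} (T : Finset L) (b : L → ℂ) (y : L → J) (r : ℕ) (x : J) (m : ℕ)
      (s : Multiset (ℕ × F.HE)), s.card = n →
    F.gz k (PowerSeries.coeff (m + 1) (Qrr.chT (cU x)) * th T b y r) d s =
      ∑ q ∈ antidiagonal (m + 2), (bernoulli q.1 : ℚ) / (q.1.factorial * q.2.factorial) *
        (F.gz k (th T b y r) d ((q.1, u x ^ q.2) ::ₘ s) - Qz.one (fun z t => if z.1 + q.1 = 0 then 0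
          else F.gz k (th T b y r) d ((z.1 + q.1 - 1, u x ^ q.2 * z.2) ::ₘ t)) s) +
      1 / 2 * ∑ q ∈ antidiagonal m, ∑ a ∈ antidiagonal q.1,
        (-1) ^ a.1 * (bernoulli (q.1 + 2) : ℚ) / ((q.1 + 2).factorial * q.2.factorial) *
          ∑ t ∈ antidiagonal r, ∑ d₁ ∈ Dn, ∑ t' ∈ antidiagonal t.1, ∑ i,
            Qz.two (fun z => F.gz k (th T b y t'.1) d₁ ((a.1, u x ^ q.2 * evC (fun j =>
              (1 + PowerSeries.C (u j) * PowerSeries.X).invOfUnit 1) (th T b y t.2) *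
                Gz.evP _ (e i)) ::ₘ z))
              (fun z => F.gz k (th T b y t'.2) (d - d₁) ((a.2, Gz.evP _ (e' i)) ::ₘ z)) s := by
  classical
  obtain ⟨Dn, hDn⟩ := hS (ν := Fin n ⊕ Fin 0) F k d h
  refine ⟨Dn, fun T b y r x m s c => ?_⟩
  obtain ⟨f, rfl⟩ := h.exists_fn s c
  rw [h.gz_ofFn, h.grrP hQ hU hN hu he (cop_th T b y r) (neg_add_cancel 1) hs f rfl]
  refine congrArg₂ _ (sum_congr rfl fun q _ => congrArg _ (congrArg₂ _ ?_ ?_)) (congrArg _
    (sum_congr rfl fun q _ => sum_congr rfl fun a _ => congrArg _ (sum_congr rfl fun t _ => ?_)))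
  · rw [← Gz.map_cons, h.gz_ofFn, Fin.comp_cons]
    rfl
  · rw [Gz.one_univ]
    refine sum_congr rfl fun s _ => if_congr Iff.rfl rfl ?_
    rw [← Gz.map_update, h.gz_ofFn, comp_update]
    rfl
  · rw [show (AM.Sp2 : AM Λ R J ((Fin n ⊕ Fin 0) ⊕ Unit × Bool) (Fin 0) → Prop) = _ from
      funext fun m => propext AM.sp2_iff, ← Gz.map_elim]
    simp only [(hDn _ _ _ _ (cop_th T b y t.1) _ _ _).2, Gz.evP_mul, Gz.two_univ]
    rw [sum_comm]
    refine (sum_congr rfl fun i _ => sum_comm).trans (sum_comm.trans (sum_congr rfl fun d₁ _ => ?_))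
    refine (sum_congr rfl fun i _ => sum_comm).trans (sum_comm.trans (sum_congr rfl fun d₁ _ => ?_))
    exact sum_comm

/-- **The recursion** -/
theorem gz_rec (hQ : St.QC) (hU : St.UcS) (hN : St.NdS) (hS : St.Spl) {u : J → F.HE}
    (hu : ∀ j, (u j).1 = F.lc _ 0 (F.w j)) {B : Type} [Fintype B] {e e' : B → H (F.X F.cone)}
    (he : F.IsCas e e') {H₀ : Subalgebra ℂ F.HE} (h₀ : ∀ j, u j ∈ H₀) {L : Type} (T : Finset L)
    (b : L → ℂ) (y : L → J) : Qz.Rec H₀ (fun i => Gz.evP _ (e i)) (fun i => Gz.evP _ (e' i)) F.Eff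
      fun m => F.gz k (th T b y m) := by
  intro m hm d n
  by_cases hs : d ≠ 0 ∨ 3 ≤ n
  swap
  · obtain ⟨rfl, c⟩ : d = 0 ∧ n ≤ 2 := ⟨by_contra fun a => hs (.inl a), by omega⟩
    exact ⟨0, zero_mem _, fun s a => h.gz_unst _ (a ▸ c)⟩
  obtain ⟨Dn, hDn⟩ := h.grrM hQ hU hN hS hu he hs
  have hσ : ∀ Θ, evC (fun j => (1 + PowerSeries.C (u j) * PowerSeries.X).invOfUnit 1) Θ ∈ H₀ :=
    fun Θ => by
      have := map_evC (c := fun j => (1 + PowerSeries.C (⟨u j, h₀ j⟩ : H₀) *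
        PowerSeries.X).invOfUnit 1) H₀.val Θ
      simp only [Grr.map_invOfUnit_one, map_add, map_one, map_mul, PowerSeries.map_C,
        PowerSeries.map_X] at this
      exact Gz.mem_eq this.symm (Subtype.prop _)
  have key : ∀ s : Multiset (ℕ × F.HE), s.card = n → F.gz k (th T b y m) d s =
      (m : ℂ)⁻¹ * ∑ q ∈ antidiagonal m, ∑ l ∈ T, ((-1) ^ q.2 * q.2.factorial / b l ^ q.2 : ℂ) *
        if q.2 = 0 then 0 else F.gz k
          (PowerSeries.coeff (q.2 - 1 + 1) (Qrr.chT (cU (y l))) * th T b y q.1) d s := fun s _ => by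
    obtain ⟨Z, hZ⟩ := h.gz_tw d s
    rw [eq_inv_mul_iff_mul_eq₀ (Nat.cast_ne_zero.2 hm), hZ, ← smul_eq_mul, ← map_smul, th_ode,
      map_sum]
    refine sum_congr rfl fun q _ => (map_sum _ _ _).trans (sum_congr rfl fun l _ => ?_)
    rw [map_smul, smul_eq_mul, hZ]
    split_ifs with a
    · rw [a, coeff_zero_chT, zero_mul, map_zero]
    · rw [Nat.sub_add_cancel (Nat.one_le_iff_ne_zero.2 a)]
  refine ⟨_, ?_, fun s c => (key s c).trans (by simp only [hDn _ _ _ _ _ _ s c]; rfl)⟩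
  refine Gz.mem_mul _ (Gz.mem_sum fun q hq => Gz.mem_sum fun l _ => Gz.mem_mul _ ?_)
  have hq := mem_antidiagonal.1 hq
  by_cases a : q.2 = 0
  · simp only [if_pos a]
    exact zero_mem _
  simp only [if_neg a]
  have p : ∀ i, u (y l) ^ i ∈ H₀ := fun i => pow_mem (h₀ _) i
  refine add_mem (Gz.mem_sum fun r _ => Gz.mem_mul _ (sub_mem
    (Submodule.subset_span (Qz.Gen.new _ _ _ (by omega) (p _)))
    (Submodule.subset_span (Qz.Gen.old _ _ _ (by omega) (p _))))) (Gz.mem_mul _ (Gz.mem_sum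
      fun r _ => Gz.mem_sum fun a _ => Gz.mem_mul _ (Gz.mem_sum fun t ht => Gz.mem_sum fun d₁ _ =>
        Gz.mem_sum fun t' ht' => ?_)))
  have ht := mem_antidiagonal.1 ht
  have ht' := mem_antidiagonal.1 ht'
  by_cases c : F.Eff d₁ ∧ F.Eff (d - d₁)
  · exact Submodule.subset_span (Qz.Gen.node _ _ _ _ _ _ _ (by omega) (by omega)
      (add_sub_cancel _ _) c.1 c.2 (mul_mem (p _) (hσ _)))
  · refine Gz.mem_eq (funext fun s => sum_eq_zero fun i _ => Multiset.sum_eq_zero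
      (Multiset.forall_mem_map_iff.2 fun z _ => by_contra fun w => c ?_)) (zero_mem _)
    exact ⟨h.gz_eff (left_ne_zero_of_mul w), h.gz_eff (right_ne_zero_of_mul w)⟩

end Fam.One

end Vale.Agent.P269
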