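import Vale.Agent.P287Q.Qz.Defs

/-!
# Connected twisted invariants of genus zero: the geometric inputs
-/

namespace Vale.Agent.P269.St

open P291Z Set Function Filter PowerSeries

/-- **Curves with two components**: the invariants are products. -/
def Spl : Prop :=
  ∀ {Λ R J K ν : Type} [Fintype Λ] [Fintype R] [Fintype J] [Fintype K] [Fintype ν] [DecidableEq R]
    [DecidableEq ν] (F : Fam Empty Λ R J K) (k : ℕ) (d : R → ℤ), F.One k →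
    ∃ Dn : Finset (R → ℤ), ∀ (Θ) {β : Type} (T : Finset β) (Θ₁ Θ₂), Qrr.Cop Θ T Θ₁ Θ₂ →
      ∀ (x : ν → ℕ × F.HE) (a a' : ℕ × H (F.X F.cone)),
      (∀ A : Finset ν, ∀ d₁ ∉ Dn, ∑ t ∈ T,
        F.gz k (Θ₁ t) d₁ ((a.1, Gz.evP _ a.2) ::ₘ A.val.map x) *
          F.gz k (Θ₂ t) (d - d₁) ((a'.1, Gz.evP _ a'.2) ::ₘ Aᶜ.val.map x) = 0) ∧
      ∀ 𝒜 : Finset (Finset ν), F.nz k (fun m => ∃ A ∈ 𝒜, m.SpS A) Θ d x a a' =
        ∑ A ∈ 𝒜, ∑ d₁ ∈ Dn, ∑ t ∈ T, F.gz k (Θ₁ t) d₁ ((a.1, Gz.evP _ a.2) ::ₘ A.val.map x) *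
          F.gz k (Θ₂ t) (d - d₁) ((a'.1, Gz.evP _ a'.2) ::ₘ Aᶜ.val.map x)

/-- **Integrals over the nodes** of connected curves of genus zero. -/
def NdS : Prop :=
  ∀ {Λ R J K ν : Type} [Fintype Λ] [Fintype R] [Fintype J] [Fintype K] [Fintype ν] [DecidableEq R]
    (F : Fam Empty Λ R J K) (k D : ℕ) (u : J → F.HE) {B : Type} [Fintype B]
    (e e' : B → H (F.X F.cone)) (Θ) {β : Type} (T : Finset β) (Θ₁ Θ₂), F.One k → F.BigD k D →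
    (∀ j, (u j).1 = F.lc _ 0 (F.w j)) → F.IsCas e e' → Qrr.Cop Θ T Θ₁ Θ₂ →
    ∀ (g : ℤ) (d : R → ℤ) (x : ν → ℕ × F.HE) (c : F.HE) (I : Finset (ℕ × ℕ)) (w : ℕ × ℕ → ℂ),
      g = 0 → ∀ Φ : Ch.Hev (Ch.ModN F (F.cy0 ν (Fin 0) k D g d)),
      (Ch.Roots _ _ Φ fun _ _ _ a b => ∑ q ∈ I, w q • ((-a) ^ q.1 * (-b) ^ q.2)) →
      2 * Loc.intg (Ch.pshN F (F.tdeg (F.sch ν (Fin 0) k D g d)) (F.cy0 ν (Fin 0) k D g d)
          (hpull (Ch.inN _ _) (Ch.eC F _ c.1) * Φ.1)) (hcls (ind (F.sel fun m => m.Conn)) *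
            ((Qrr.evC (Ch.indC F.toWt _) Θ).1 * Ch.insP F _ .inl x)) =
        ∑ q ∈ I, w q * ∑ t ∈ T, ∑ b, F.nz k AM.Sp2 (Θ₁ t) d x
          (q.1, (c * Qrr.evC (fun j => (1 + C (u j) * X).invOfUnit 1) (Θ₂ t)).1 * e b) (q.2, e' b)

/-- The class of the diagonal and its even part. -/
def CasE : Prop :=
  ∀ {Λ R J K : Type} [Fintype Λ] [Fintype R] [Fintype J] [Fintype K] [DecidableEq R]
    (F : Fam Empty Λ R J K) (k : ℕ), F.One k → (∀ c : F.HE, F.intX _ c.1 = F.ηE c) ∧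
    (∃ (n : ℕ) (e e' : Fin n → H (F.X F.cone)), F.IsCas e e') ∧
    ∀ {B : Type} [Fintype B] (e e' : B → H (F.X F.cone)), F.IsCas e e' →
      P287Q.Qz.Cas F.ηE (fun b => Gz.evP _ (e b)) fun b => Gz.evP _ (e' b)

end Vale.Agent.P269.St
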